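import Crest.Agent.R134.Trig
import Crest.Agent.R134.Cre
import Crest.Agent.R350.Gauss
import Crest.Prelude.Def_FreeEntropy
import Crest.Prelude.Def_CStarRep

/-!
# Row 89 (S0118): `χ ≤ χ* - 1/2`.  Definitions.

OUTLINE.  `X e` (`e : K ⊕ K`, `K = Fin (n+2)`) free semicirculars; `s = X (inl 0)`, `A = X (inl 1)`,
`u` the Haar unitary generating `W*(A)`, `g` a Sidon set.  `Z = (s, λ A, u^{g j} s u^{-g j} + X (inl j))`,
noise `S i = X (inr i)`.  A volume preserving shear gives `χ(Z) = (N/2) log (2πe) + log λ`.  For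
`s ∈ [4, 5]` and tiny `λ` polynomials in `Z + √s S` do not see `u` (`Mid.lean`), so `Φ*` is almost
the free value there; this gains `n/100` in `χ*`, the small times cost `log poly(n)`.

Tools: `Crest.Agent.R95` (`Tr`, `n2`), `Crest.Agent.R134` (`fc`, `FF`, `Semi`, `Free`, `Cre1`, `W`).
-/

set_option autoImplicit false

namespace Crest.Agent.R89

open Crest.Agent.R95 Crest.Agent.R134 Crest.OpAlg Polynomial MeasureTheory
open scoped InnerProductSpace ComplexConjugate

/-- value of a word -/
def wv {M K : Type*} [Monoid M] (Y : K → M) (w : List K) : M := (w.map Y).prod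

theorem wv_nil {M K : Type*} [Monoid M] (Y : K → M) : wv Y [] = 1 := rfl

theorem wv_cons {M K : Type*} [Monoid M] (Y : K → M) (k : K) (w : List K) :
    wv Y (k :: w) = Y k * wv Y w := by simp [wv]

theorem wv_append {M K : Type*} [Monoid M] (Y : K → M) (v w : List K) :
    wv Y (v ++ w) = wv Y v * wv Y w := by simp [wv]

/-- `∑_{w = a ++ k :: b} f a k b` -/
def asum {K M : Type*} [AddCommMonoid M] : (List K → K → List K → M) → List K → M
  | _, [] => 0
  | f, k :: w => f [] k w + asum (fun a => f (k :: a)) w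

theorem asum_nil {K M : Type*} [AddCommMonoid M] (f : List K → K → List K → M) :
    asum f [] = 0 := asum.eq_1 f

theorem asum_cons {K M : Type*} [AddCommMonoid M] (f : List K → K → List K → M) (k : K)
    (w : List K) : asum f (k :: w) = f [] k w + asum (fun a => f (k :: a)) w :=
  have := asum.eq_def f w
  asum.eq_2 f k w

/-- `∑_{w = a ++ e :: b} f a b` -/
def ssum {K M : Type*} [DecidableEq K] [AddCommMonoid M] (e : K) (f : List K → List K → M)
    (w : List K) : M :=
  asum (fun a k b => if k = e then f a b else 0) w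

theorem ssum_nil {K M : Type*} [DecidableEq K] [AddCommMonoid M] (e : K)
    (f : List K → List K → M) : ssum e f [] = 0 := rfl

theorem ssum_cons {K M : Type*} [DecidableEq K] [AddCommMonoid M] (e : K)
    (f : List K → List K → M) (k : K) (w : List K) :
    ssum e f (k :: w) = (if k = e then f [] w else 0) + ssum e (fun a => f (k :: a)) w := rfl

section asum

variable {K M M' : Type*} [AddCommMonoid M] [AddCommMonoid M']

theorem asum_congr {f g : List K → K → List K → M} {w : List K}
    (h : ∀ a k b, a ++ k :: b = w → f a k b = g a k b) : asum f w = asum g w := by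
  induction w generalizing f g with
  | nil => rfl
  | cons k w ih =>
    rw [asum_cons, asum_cons, h [] k w rfl,
      ih (g := fun a => g (k :: a)) fun a j b e => h (k :: a) j b (by rw [← e]; rfl)]

theorem map_asum {F : Type*} [FunLike F M M'] [AddMonoidHomClass F M M'] (φ : F)
    (f : List K → K → List K → M) (w : List K) :
    φ (asum f w) = asum (fun a k b => φ (f a k b)) w := by
  induction w generalizing f with
  | nil => exact map_zero φ
  | cons k w ih => rw [asum_cons, asum_cons, map_add, ih]

theorem asum_zero (w : List K) : asum (fun _ _ _ => (0 : M)) w = 0 := by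
  induction w with
  | nil => rfl
  | cons k w ih => rw [asum_cons, ih, add_zero]

theorem asum_add (f g : List K → K → List K → M) (w : List K) :
    asum (fun a k b => f a k b + g a k b) w = asum f w + asum g w := by
  induction w generalizing f g with
  | nil => exact (add_zero _).symm
  | cons k w ih => rw [asum_cons, asum_cons, asum_cons, ih, add_add_add_comm]

theorem asum_sum {J : Type*} (s : Finset J) (f : J → List K → K → List K → M) (w : List K) :
    asum (fun a k b => ∑ j ∈ s, f j a k b) w = ∑ j ∈ s, asum (f j) w := by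
  induction w generalizing f with
  | nil => exact (Finset.sum_eq_zero fun _ _ => rfl).symm
  | cons k w ih =>
    simp only [asum_cons, Finset.sum_add_distrib]
    rw [ih fun j a => f j (k :: a)]

theorem asum_mem {S : Type*} [SetLike S M] [AddSubmonoidClass S M] {V : S}
    {f : List K → K → List K → M} {w : List K} (h : ∀ a k b, a ++ k :: b = w → f a k b ∈ V) :
    asum f w ∈ V := by
  induction w generalizing f with
  | nil => exact zero_mem V
  | cons k w ih =>
    rw [asum_cons]
    exact add_mem (h [] k w rfl) (ih fun a j b e => h (k :: a) j b (by rw [← e]; rfl))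

theorem tendsto_asum [TopologicalSpace M] [ContinuousAdd M] {T : Type*} {L : Filter T}
    {f : T → List K → K → List K → M} {g : List K → K → List K → M} {w : List K}
    (h : ∀ a k b, a ++ k :: b = w → Filter.Tendsto (fun t => f t a k b) L (nhds (g a k b))) :
    Filter.Tendsto (fun t => asum (f t) w) L (nhds (asum g w)) := by
  induction w generalizing f g with
  | nil => exact tendsto_const_nhds
  | cons k w ih =>
    simp only [asum_cons]
    exact (h [] k w rfl).add (ih (f := fun t a => f t (k :: a)) (g := fun a => g (k :: a))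
      fun a j b e => h (k :: a) j b (by rw [← e]; rfl))

variable [DecidableEq K]

theorem asum_eq_sum [Fintype K] (f : List K → K → List K → M) (w : List K) :
    asum f w = ∑ k, ssum k (fun a b => f a k b) w := by
  simp only [ssum]
  rw [← asum_sum]
  exact asum_congr fun a k b _ => by simp

theorem ssum_congr {e : K} {f g : List K → List K → M} {w : List K}
    (h : ∀ a b, a ++ e :: b = w → f a b = g a b) : ssum e f w = ssum e g w :=
  asum_congr fun a k b hw => by
    split_ifs with hk
    · exact h a b (hk ▸ hw)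
    · rfl

theorem map_ssum {F : Type*} [FunLike F M M'] [AddMonoidHomClass F M M'] (φ : F) (e : K)
    (f : List K → List K → M) (w : List K) :
    φ (ssum e f w) = ssum e (fun a b => φ (f a b)) w := by
  rw [ssum, map_asum]
  exact asum_congr fun a k b _ => by split_ifs <;> simp

theorem ssum_zero (e : K) (w : List K) : ssum e (fun _ _ => (0 : M)) w = 0 := by
  simp only [ssum, ite_self, asum_zero]

theorem ssum_add (e : K) (f g : List K → List K → M) (w : List K) :
    ssum e (fun a b => f a b + g a b) w = ssum e f w + ssum e g w := by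
  rw [ssum, ssum, ssum, ← asum_add]
  exact asum_congr fun a k b _ => by split_ifs <;> simp

theorem ssum_sum {J : Type*} (s : Finset J) (e : K) (f : J → List K → List K → M) (w : List K) :
    ssum e (fun a b => ∑ j ∈ s, f j a b) w = ∑ j ∈ s, ssum e (f j) w := by
  simp only [ssum]
  rw [← asum_sum]
  exact asum_congr fun a k b _ => by split_ifs <;> simp

theorem ssum_mem {S : Type*} [SetLike S M] [AddSubmonoidClass S M] {V : S} {e : K}
    {f : List K → List K → M} {w : List K} (h : ∀ a b, a ++ e :: b = w → f a b ∈ V) :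
    ssum e f w ∈ V :=
  asum_mem fun a k b hw => by
    split_ifs with hk
    · exact h a b (hk ▸ hw)
    · exact zero_mem V

theorem tendsto_ssum [TopologicalSpace M] [ContinuousAdd M] {T : Type*} {L : Filter T} {e : K}
    {f : T → List K → List K → M} {g : List K → List K → M} {w : List K}
    (h : ∀ a b, a ++ e :: b = w → Filter.Tendsto (fun t => f t a b) L (nhds (g a b))) :
    Filter.Tendsto (fun t => ssum e (f t) w) L (nhds (ssum e g w)) :=
  tendsto_asum fun a k b hw => by
    split_ifs with hk
    · exact h a b (hk ▸ hw)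
    · exact tendsto_const_nhds

end asum

theorem map_wv {M M' K F : Type*} [Monoid M] [Monoid M'] [FunLike F M M'] [MonoidHomClass F M M']
    (φ : F) (Y : K → M) (w : List K) : φ (wv Y w) = wv (fun k => φ (Y k)) w := by
  induction w with
  | nil => exact map_one φ
  | cons k w ih => rw [wv_cons, wv_cons, map_mul, ih]

theorem star_wv {M K : Type*} [Monoid M] [StarMul M] {Y : K → M} (hY : ∀ k, star (Y k) = Y k)
    (w : List K) : star (wv Y w) = wv Y w.reverse := by
  induction w with
  | nil => exact star_one M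
  | cons k w ih =>
    rw [wv_cons, star_mul, ih, hY, List.reverse_cons, wv_append, wv_cons, wv_nil, mul_one]

theorem wv_mem {M K S : Type*} [Monoid M] [SetLike S M] [SubmonoidClass S M] {V : S} {Y : K → M}
    (hY : ∀ k, Y k ∈ V) (w : List K) : wv Y w ∈ V := by
  induction w with
  | nil => exact one_mem V
  | cons k w ih => rw [wv_cons]; exact mul_mem (hY k) ih

theorem wordEval_eq {R : Type*} [Ring R] {n : ℕ} (Y : Fin n → R) (w : FreeMonoid (Fin n)) :
    wordEval Y w = wv Y (FreeMonoid.toList w) := FreeMonoid.lift_apply Y w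

/-- divided difference of `q = ∑ cₙ Xⁿ`: `∑ₙ cₙ ∑_{i + j = n - 1} f i j` -/
noncomputable def dd {M : Type*} [AddCommMonoid M] [Module ℂ M] (q : ℂ[X]) (f : ℕ → ℕ → M) : M :=
  q.sum fun n c => c • ∑ i ∈ Finset.range n, f i (n - 1 - i)

/-- `q(a) b q(a)⋆`, written algebraically -/
noncomputable def cj {R : Type*} [Ring R] [Algebra ℂ R] (q : ℂ[X]) (a b : R) : R :=
  aeval a q * b * aeval a (q.map (starRingEnd ℂ))

theorem cj_zero {R : Type*} [Ring R] [Algebra ℂ R] (a b : R) : cj 0 a b = 0 := by simp [cj]

theorem map_cj {R R' : Type*} [Ring R] [Algebra ℂ R] [Ring R'] [Algebra ℂ R'] (φ : R →ₐ[ℂ] R')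
    (q : ℂ[X]) (a b : R) : φ (cj q a b) = cj q (φ a) (φ b) := by
  simp only [cj, map_mul, aeval_algHom_apply]

theorem star_aeval {R : Type*} [Ring R] [StarRing R] [Algebra ℂ R] [StarModule ℂ R] (q : ℂ[X])
    {a : R} (ha : star a = a) : star (aeval a q) = aeval a (q.map (starRingEnd ℂ)) := by
  induction q using Polynomial.induction_on' with
  | add p q hp hq => rw [map_add, star_add, hp, hq, Polynomial.map_add, map_add]
  | monomial n c =>
    rw [Polynomial.map_monomial, aeval_monomial, aeval_monomial, ← Algebra.smul_def,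
      ← Algebra.smul_def, star_smul, star_pow, ha]
    rfl

theorem cj_eq {R : Type*} [Ring R] [StarRing R] [Algebra ℂ R] [StarModule ℂ R] (q : ℂ[X])
    {a : R} (ha : star a = a) (b : R) : cj q a b = aeval a q * b * star (aeval a q) := by
  rw [star_aeval q ha, cj]

section alg

variable {A : Type} [CStarAlgebra A]

/-- the trace as a linear map -/
noncomputable abbrev tl (τ : Tr A) : A →ₗ[ℂ] ℂ := τ.φ.toLinearMap

/-- the C⋆-algebra generated by `S` -/
noncomputable def Cs (S : Set A) : StarSubalgebra ℂ A := (StarAlgebra.adjoin ℂ S).topologicalClosure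

instance isClosed_Cs (S : Set A) : IsClosed (Cs S : Set A) :=
  StarSubalgebra.isClosed_topologicalClosure _

theorem mem_Cs {S : Set A} {x : A} (hx : x ∈ S) : x ∈ Cs S :=
  StarSubalgebra.le_topologicalClosure _ (StarAlgebra.subset_adjoin ℂ S hx)

theorem Cs_le {S : Set A} {N : StarSubalgebra ℂ A} (h : S ⊆ N) (hN : IsClosed (N : Set A)) :
    Cs S ≤ N :=
  StarSubalgebra.topologicalClosure_minimal (StarAlgebra.adjoin_le h) hN

theorem Cs_mono {S T : Set A} (h : S ⊆ T) : Cs S ≤ Cs T :=
  Cs_le (fun _ hx => mem_Cs (h hx)) (isClosed_Cs T)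

/-- bound for the `i`-th conjugate variable of `Y` -/
def Bd (τ : Tr A) {K : Type} [DecidableEq K] (Y : K → A) (i : K) (B : ℝ) : Prop :=
  ∀ c : List K →₀ ℂ,
    ‖c.sum fun w z => z * ssum i (fun a b => τ.φ (wv Y a) * τ.φ (wv Y b)) w‖ ≤
      B * τ.n2 (c.sum fun w z => z • wv Y w)

/-- `u ^ a` for the Haar unitary `u = hu t` -/
noncomputable def uz (t : A) (a : ℤ) : A :=
  fc (fun x => Complex.exp (Complex.I * a * FF x)) t

variable {n : ℕ}

/-- a Sidon set -/
def gg (i : Fin (n + 2)) : ℤ := (i : ℕ) + 2 * (n + 2) * (i : ℕ) ^ 2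

/-- coefficient of `A` -/
noncomputable def al (lam : ℝ) (i : Fin (n + 2)) : ℂ := if i = 1 then (lam : ℂ) else 0

/-- coefficient of the private semicircular -/
noncomputable def ep (i : Fin (n + 2)) : ℂ := if i = 0 ∨ i = 1 then 0 else 1

/-- coefficient of the conjugate of `s` -/
noncomputable def th (i : Fin (n + 2)) : ℂ := if i = 1 then 0 else 1

/-- the tuple -/
noncomputable def ZZ (X : Fin (n + 2) ⊕ Fin (n + 2) → A) (lam : ℝ) (i : Fin (n + 2)) : A :=
  al lam i • X (.inl 1) + ep i • X (.inl i) +
    th i • (uz (X (.inl 1)) (gg i) * X (.inl 0) * uz (X (.inl 1)) (-gg i))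

/-- the noise -/
def SS (X : Fin (n + 2) ⊕ Fin (n + 2) → A) (i : Fin (n + 2)) : A := X (.inr i)

/-- the tuple at time `s` -/
noncomputable def YY (X : Fin (n + 2) ⊕ Fin (n + 2) → A) (lam s : ℝ) : Fin (n + 2) → A :=
  heatTuple (ZZ X lam) (SS X) s

end alg

section hilb

variable {A : Type} [CStarAlgebra A] {H : Type} [NormedAddCommGroup H] [InnerProductSpace ℂ H]
  [CompleteSpace H]

/-- the projection onto the vacuum -/
noncomputable def PP (Ω : H) : H →L[ℂ] H := (innerSL ℂ Ω).smulRight Ω

omit [CompleteSpace H] in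
theorem PP_apply (Ω ξ : H) : PP Ω ξ = ⟪Ω, ξ⟫_ℂ • Ω := rfl

/-- Fock model: left creation operators `l`, right multiplication `R` -/
structure FM (τ : Tr A) (ι : A →⋆ₐ[ℂ] (H →L[ℂ] H)) (R : A →L[ℂ] (H →L[ℂ] H)) (Ω : H) {I : Type}
    [DecidableEq I] (l : I → H →L[ℂ] H) (X : I → A) : Prop where
  faithful : τ.Faithful
  phi : ∀ a, τ.φ a = ⟪Ω, ι a Ω⟫_ℂ
  right : ∀ m a, R m (ι a Ω) = ι (a * m) Ω
  dense : Dense ((fun a => ι a Ω) '' (StarAlgebra.adjoin ℂ (Set.range X) : Set A))
  gen : ∀ e, ι (X e) = l e + star (l e)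
  vac : ∀ e, star (l e) Ω = 0
  dual : ∀ e f, star (l e) * R (X f) - R (X f) * star (l e) = if e = f then PP Ω else 0

/-- the free difference quotient as a commutator -/
noncomputable def DD (R : A →L[ℂ] (H →L[ℂ] H)) (l : H →L[ℂ] H) (m : A) : H →L[ℂ] H :=
  star l * R m - R m * star l

/-- `∑_{w = a k b} τ (d Y_a) Y_b Ω` -/
noncomputable def Mv (τ : Tr A) (ι : A →⋆ₐ[ℂ] (H →L[ℂ] H)) (Ω : H) {K : Type} [DecidableEq K]
    (Y : K → A) (k : K) (d : A) (w : List K) : H :=
  ssum k (fun a b => τ.φ (d * wv Y a) • ι (wv Y b) Ω) w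

/-- polynomial vectors of degree at most `D` -/
noncomputable def VV (Ω : H) {K : Type} (Y : K → H →L[ℂ] H) (D : ℕ) : Submodule ℂ H :=
  Submodule.span ℂ {ξ | ∃ w : List K, w.length ≤ D ∧ wv Y w Ω = ξ}

end hilb

/-- coordinates of matrix tuples -/
abbrev Co (N d : ℕ) : Type := Fin N × (Fin d × Fin d)

/-- a GUE tuple built from standard Gaussian coordinates -/
noncomputable def gue (N d : ℕ) (g : Co N d → ℝ) : Fin N → Matrix (Fin d) (Fin d) ℂ :=
  matrixTuple (WithLp.toLp 2 fun p => g p / √(d : ℝ))

/-- normalised trace of a word in the GUE tuple -/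
noncomputable def tw (N d : ℕ) (g : Co N d → ℝ) (w : List (Fin N)) : ℂ :=
  (d : ℂ)⁻¹ * Matrix.trace (wv (gue N d g) w)

/-- expectation of a product of normalised traces -/
noncomputable def EE (N d : ℕ) (ws : List (List (Fin N))) : ℂ :=
  ∫ g, (ws.map (tw N d g)).prod ∂(R350.gm (Co N d))

end Crest.Agent.R89
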