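import Crest.Agent.R89.Shear

/-!
# Row 89: the operator norm of GUE matrices (task R89-GueNorm)

PLAN.  `E = EuclideanSpace ℂ (Fin d)`, `finrank ℝ E = 2 d`.  A maximal `1`-separated finite subset of the
ball of radius `2` has at most `5 ^ (2 d)` points (`Besicovitch.card_le_of_separated`; take one of maximal
cardinality), halve it: a `1/2`-net `𝒩` of the unit ball.  Then `‖M‖ ≤ 2 max_{x ∈ 𝒩} ‖M x‖` and
`‖y‖ ≤ 2 max_{z ∈ 𝒩} re ⟪z, y⟫`, so `16 < ‖M‖` gives `x, z ∈ 𝒩` with `4 < re ⟪z, M x⟫`.  The real-linear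
functional `a ↦ re ⟪z, hermitianOfCoords a x⟫ = ∑ p, c p * a p` (`herm_add`, `herm_smul`) is bounded by
`‖a‖₂` (Cauchy-Schwarz, `herm_normSq`), so `∑ c p ² ≤ 1` (test `a = c`).  Chernoff with
`R350.integral_exp_lin` (coefficients `4 √d c p` on the block `l`, `0` elsewhere):
`gm {4 √d < ∑ c p g (l,p)} ≤ exp (-8 d)`.  Union bound: `N * 625 ^ d * exp (-8 d) → 0` (`625 < e⁸`).
Put auxiliary lemmas in `namespace NormAux`.
-/

set_option autoImplicit false

namespace Crest.Agent.R89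

open Crest.OpAlg MeasureTheory Filter Topology

namespace NormAux

open scoped InnerProductSpace

theorem exists_net (E : Type) [NormedAddCommGroup E] [NormedSpace ℝ E] [FiniteDimensional ℝ E] :
    ∃ s : Finset E, s.card ≤ 5 ^ Module.finrank ℝ E ∧ (∀ x ∈ s, ‖x‖ ≤ 1) ∧
      ∀ y : E, ‖y‖ ≤ 1 → ∃ x ∈ s, ‖y - x‖ ≤ 1 / 2 := by
  classical
  let P : Finset E → Prop := fun s =>
    (∀ c ∈ s, ‖c‖ ≤ 2) ∧ ∀ c ∈ s, ∀ d ∈ s, c ≠ d → 1 ≤ ‖c - d‖
  have hb : ∀ s, P s → s.card ≤ 5 ^ Module.finrank ℝ E := fun s hs =>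
    Besicovitch.card_le_of_separated s hs.1 hs.2
  have hne : ({k | ∃ s, P s ∧ s.card = k} : Set ℕ).Nonempty :=
    ⟨0, ∅, ⟨by simp, by simp⟩, rfl⟩
  have hbdd : BddAbove ({k | ∃ s, P s ∧ s.card = k} : Set ℕ) :=
    ⟨_, by rintro _ ⟨s, hs, rfl⟩; exact hb s hs⟩
  obtain ⟨s, hs, hcard⟩ := Nat.sSup_mem hne hbdd
  have hmax : ∀ y : E, ‖y‖ ≤ 2 → ∃ c ∈ s, ‖y - c‖ < 1 := by
    intro y hy
    by_contra hcon
    push Not at hcon
    have hys : y ∉ s := fun h => by
      have := hcon y h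
      rw [sub_self, norm_zero] at this
      linarith
    have hP : P (insert y s) := by
      refine ⟨fun c hc => ?_, fun c hc d hd hcd => ?_⟩
      · rcases Finset.mem_insert.1 hc with rfl | hc
        · exact hy
        · exact hs.1 c hc
      · rcases Finset.mem_insert.1 hc with hc | hc
        · rcases Finset.mem_insert.1 hd with hd | hd
          · exact absurd (hc.trans hd.symm) hcd
          · rw [hc]; exact hcon d hd
        · rcases Finset.mem_insert.1 hd with hd | hd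
          · rw [norm_sub_rev, hd]; exact hcon c hc
          · exact hs.2 c hc d hd hcd
    have := le_csSup hbdd ⟨_, hP, rfl⟩
    rw [Finset.card_insert_of_notMem hys, ← hcard] at this
    omega
  refine ⟨s.image fun c => (1 / 2 : ℝ) • c, Finset.card_image_le.trans (hb s hs), ?_, ?_⟩
  · intro x hx
    obtain ⟨c, hc, rfl⟩ := Finset.mem_image.1 hx
    have := hs.1 c hc
    rw [norm_smul, Real.norm_eq_abs, abs_of_pos (by norm_num)]
    linarith
  · intro y hy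
    obtain ⟨c, hc, h⟩ := hmax ((2 : ℝ) • y) (by
      rw [norm_smul, Real.norm_eq_abs, abs_of_pos (by norm_num)]; linarith)
    refine ⟨_, Finset.mem_image_of_mem _ hc, ?_⟩
    have e : y - (1 / 2 : ℝ) • c = (1 / 2 : ℝ) • ((2 : ℝ) • y - c) := by
      rw [smul_sub, smul_smul]; norm_num
    rw [e, norm_smul, Real.norm_eq_abs, abs_of_pos (by norm_num)]
    linarith

theorem norm_le_of_net {E : Type} [NormedAddCommGroup E] [InnerProductSpace ℂ E] {s : Finset E}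
    (hs : ∀ y : E, ‖y‖ ≤ 1 → ∃ x ∈ s, ‖y - x‖ ≤ 1 / 2) {K : ℝ} {y : E}
    (h : ∀ z ∈ s, (⟪z, y⟫_ℂ).re ≤ K) : ‖y‖ ≤ 2 * K := by
  rcases eq_or_ne y 0 with rfl | hy
  · obtain ⟨z, hz, -⟩ := hs 0 (by simp)
    have := h z hz
    simp only [inner_zero_right, Complex.zero_re, norm_zero] at this ⊢
    linarith
  have hn : 0 < ‖y‖ := norm_pos_iff.2 hy
  set u : E := ((‖y‖⁻¹ : ℝ) : ℂ) • y with hu
  have hu1 : ‖u‖ = 1 := by
    rw [hu, norm_smul, Complex.norm_real, norm_inv, norm_norm, inv_mul_cancel₀ hn.ne']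
  obtain ⟨z, hz, huz⟩ := hs u hu1.le
  have h1 : (⟪u, y⟫_ℂ).re = ‖y‖ := by
    rw [hu, inner_smul_left, Complex.conj_ofReal, Complex.re_ofReal_mul]
    have : (⟪y, y⟫_ℂ).re = ‖y‖ ^ 2 := inner_self_eq_norm_sq (𝕜 := ℂ) y
    rw [this]; field_simp
  have h2 : (⟪u - z, y⟫_ℂ).re ≤ 1 / 2 * ‖y‖ :=
    (Complex.re_le_norm _).trans ((norm_inner_le_norm _ _).trans
      (mul_le_mul_of_nonneg_right huz hn.le))
  rw [inner_sub_left, Complex.sub_re, h1] at h2
  have := h z hz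
  linarith

theorem opNorm_le_of_net {E : Type} [NormedAddCommGroup E] [InnerProductSpace ℂ E] {s : Finset E}
    (hs : ∀ y : E, ‖y‖ ≤ 1 → ∃ x ∈ s, ‖y - x‖ ≤ 1 / 2) {K : ℝ} {M : E →L[ℂ] E}
    (h : ∀ x ∈ s, ∀ z ∈ s, (⟪z, M x⟫_ℂ).re ≤ K) : ‖M‖ ≤ 4 * K := by
  have h1 : ∀ x ∈ s, ‖M x‖ ≤ 2 * K := fun x hx => norm_le_of_net hs (h x hx)
  have hK : 0 ≤ K := by
    obtain ⟨z, hz, -⟩ := hs 0 (by simp)
    have := (norm_nonneg _).trans (h1 z hz)
    linarith
  have h2 : ‖M‖ ≤ 2 * K + ‖M‖ / 2 := by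
    rw [← ContinuousLinearMap.norm_restrictScalars (𝕜' := ℝ) M]
    refine ContinuousLinearMap.opNorm_le_of_unit_norm (by positivity) fun y hy => ?_
    obtain ⟨x, hx, hyx⟩ := hs y hy.le
    have e : M y = M x + M (y - x) := by rw [map_sub]; abel
    have h3 : ‖M (y - x)‖ ≤ ‖M‖ * (1 / 2) :=
      (M.le_opNorm _).trans (mul_le_mul_of_nonneg_left hyx (norm_nonneg _))
    have h4 := h1 x hx
    have h5 := norm_add_le (M x) (M (y - x))
    rw [ContinuousLinearMap.norm_restrictScalars]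
    change ‖M y‖ ≤ _
    rw [e]; linarith
  linarith

theorem norm_apply_sq_le {d : ℕ} (M : Matrix (Fin d) (Fin d) ℂ) (x : EuclideanSpace ℂ (Fin d)) :
    ‖Matrix.toEuclideanCLM (n := Fin d) (𝕜 := ℂ) M x‖ ^ 2 ≤ (∑ i, ∑ j, ‖M i j‖ ^ 2) * ‖x‖ ^ 2 := by
  rw [EuclideanSpace.norm_sq_eq, EuclideanSpace.norm_sq_eq, Finset.sum_mul]
  refine Finset.sum_le_sum fun i _ => ?_
  refine le_trans ?_ (Finset.sum_mul_sq_le_sq_mul_sq Finset.univ (fun j => ‖M i j‖) fun j => ‖x j‖)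
  refine pow_le_pow_left₀ (norm_nonneg _) ?_ 2
  rw [Matrix.ofLp_toEuclideanCLM, Matrix.mulVec, dotProduct]
  exact (norm_sum_le _ _).trans (Finset.sum_le_sum fun j _ => (norm_mul _ _).le)

/-- the real-linear functional `a ↦ re ⟪z, herm a x⟫` -/
noncomputable def fn {d : ℕ} (z x : EuclideanSpace ℂ (Fin d)) :
    EuclideanSpace ℝ (Fin d × Fin d) →ₗ[ℝ] ℝ where
  toFun a := (⟪z, Matrix.toEuclideanCLM (n := Fin d) (𝕜 := ℂ) (hermitianOfCoords a) x⟫_ℂ).re
  map_add' a b := by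
    rw [herm_add, map_add, _root_.add_apply, inner_add_right, Complex.add_re]
  map_smul' r a := by
    rw [herm_smul, map_smul, _root_.smul_apply, inner_smul_right, Complex.re_ofReal_mul]
    rfl

theorem exists_coef {d : ℕ} {z x : EuclideanSpace ℂ (Fin d)} (hz : ‖z‖ ≤ 1) (hx : ‖x‖ ≤ 1) :
    ∃ c : Fin d × Fin d → ℝ, ∑ p, c p ^ 2 ≤ 1 ∧ ∀ a : EuclideanSpace ℝ (Fin d × Fin d),
      (⟪z, Matrix.toEuclideanCLM (n := Fin d) (𝕜 := ℂ) (hermitianOfCoords a) x⟫_ℂ).re =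
        ∑ p, c p * a p := by
  classical
  have key : ∀ a : EuclideanSpace ℝ (Fin d × Fin d),
      fn z x a = ∑ p, fn z x (EuclideanSpace.single p 1) * a p := by
    intro a
    have : a = ∑ p, a p • EuclideanSpace.single p (1 : ℝ) := by
      ext q; simp [Pi.single_apply]
    conv_lhs => rw [this]
    rw [map_sum]
    exact Finset.sum_congr rfl fun p _ => by rw [map_smul, smul_eq_mul, mul_comm]
  refine ⟨fun p => fn z x (EuclideanSpace.single p 1), ?_, key⟩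
  set c : Fin d × Fin d → ℝ := fun p => fn z x (EuclideanSpace.single p 1) with hc
  have h1 := key (WithLp.toLp 2 c)
  have h2 : fn z x (WithLp.toLp 2 c) = ∑ p, c p ^ 2 := by
    rw [h1]; exact Finset.sum_congr rfl fun p _ => by rw [sq]
  have hS : 0 ≤ ∑ p, c p ^ 2 := Finset.sum_nonneg fun p _ => sq_nonneg _
  set v := Matrix.toEuclideanCLM (n := Fin d) (𝕜 := ℂ) (hermitianOfCoords (WithLp.toLp 2 c)) x
    with hv
  have h3 : ‖v‖ ^ 2 ≤ ∑ p, c p ^ 2 := by
    refine (norm_apply_sq_le _ _).trans ?_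
    rw [herm_normSq]
    exact mul_le_of_le_one_right hS (pow_le_one₀ (norm_nonneg _) hx)
  have h4 : ∑ p, c p ^ 2 ≤ ‖v‖ := by
    rw [← h2]
    exact (Complex.re_le_norm _).trans ((norm_inner_le_norm _ _).trans
      (mul_le_of_le_one_left (norm_nonneg _) hz))
  nlinarith [norm_nonneg v]

theorem chernoff {N d : ℕ} (l : Fin N) {c : Fin d × Fin d → ℝ} (hc : ∑ p, c p ^ 2 ≤ 1) :
    (R350.gm (Co N d)).real {g | 4 < ∑ p, c p * (g (l, p) / √(d : ℝ))} ≤ Real.exp (-8 * d) := by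
  classical
  let c' : Co N d → ℝ := fun i => if i.1 = l then 4 * √(d : ℝ) * c i.2 else 0
  have hd : (0 : ℝ) ≤ d := Nat.cast_nonneg d
  have h1 : ∀ g : Co N d → ℝ, ∑ i, c' i * g i = 4 * d * ∑ p, c p * (g (l, p) / √(d : ℝ)) := by
    intro g
    rw [Fintype.sum_prod_type, Finset.sum_eq_single l, Finset.mul_sum]
    · refine Finset.sum_congr rfl fun p _ => ?_
      simp only [c', if_true]
      have : (d : ℝ) / √(d : ℝ) = √(d : ℝ) := Real.div_sqrt
      calc 4 * √(d : ℝ) * c p * g (l, p) = 4 * ((d : ℝ) / √(d : ℝ)) * c p * g (l, p) := by rw [this]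
        _ = _ := by ring
    · intro b _ hb; simp [c', hb]
    · simp
  have h2 : ∑ i, c' i ^ 2 / 2 ≤ 8 * (d : ℝ) := by
    rw [Fintype.sum_prod_type, Finset.sum_eq_single l]
    · have : ∀ p, c' (l, p) ^ 2 / 2 = 8 * d * c p ^ 2 := fun p => by
        simp only [c', if_true]
        rw [mul_pow, mul_pow, Real.sq_sqrt hd]; ring
      simp only [this]
      rw [← Finset.mul_sum]
      exact mul_le_of_le_one_right (by positivity) hc
    · intro b _ hb; simp [c', hb]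
    · simp
  have h3 := mul_meas_ge_le_integral_of_nonneg (μ := R350.gm (Co N d))
    (Eventually.of_forall fun g => (Real.exp_pos (∑ i, c' i * g i)).le)
    (R350.integrable_exp_lin c') (Real.exp (16 * d))
  rw [R350.integral_exp_lin] at h3
  have h4 : (R350.gm (Co N d)).real {g | 4 < ∑ p, c p * (g (l, p) / √(d : ℝ))} ≤
      (R350.gm (Co N d)).real {g | Real.exp (16 * d) ≤ Real.exp (∑ i, c' i * g i)} := by
    refine measureReal_mono (fun g hg => ?_)
    simp only [Set.mem_ofPred_eq] at hg ⊢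
    rw [Real.exp_le_exp, h1]
    nlinarith
  refine h4.trans ?_
  have h5 := h3.trans (Real.exp_le_exp.2 h2)
  rw [← le_div_iff₀' (Real.exp_pos _), ← Real.exp_sub] at h5
  refine h5.trans (le_of_eq ?_)
  congr 1; ring

theorem tail_le (N d : ℕ) : (R350.gm (Co N d)).real
    {g | ∃ l, 16 < ‖Matrix.toEuclideanCLM (n := Fin d) (𝕜 := ℂ) (gue N d g l)‖} ≤
      N * (625 * Real.exp (-8)) ^ d := by
  classical
  obtain ⟨s, hcard, hs1, hs⟩ := exists_net (EuclideanSpace ℂ (Fin d))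
  rw [finrank_real_of_complex, finrank_euclideanSpace_fin] at hcard
  have hex : ∀ z x : EuclideanSpace ℂ (Fin d), ∃ c : Fin d × Fin d → ℝ, ∑ p, c p ^ 2 ≤ 1 ∧
      (‖z‖ ≤ 1 → ‖x‖ ≤ 1 → ∀ a : EuclideanSpace ℝ (Fin d × Fin d),
      (⟪z, Matrix.toEuclideanCLM (n := Fin d) (𝕜 := ℂ) (hermitianOfCoords a) x⟫_ℂ).re =
        ∑ p, c p * a p) := by
    intro z x
    by_cases h : ‖z‖ ≤ 1 ∧ ‖x‖ ≤ 1
    · obtain ⟨c, h1, h2⟩ := exists_coef h.1 h.2
      exact ⟨c, h1, fun _ _ => h2⟩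
    · exact ⟨0, by simp, fun h1 h2 => absurd ⟨h1, h2⟩ h⟩
  choose c hc1 hc2 using hex
  have hsub : {g : Co N d → ℝ |
      ∃ l, 16 < ‖Matrix.toEuclideanCLM (n := Fin d) (𝕜 := ℂ) (gue N d g l)‖} ⊆
      ⋃ t ∈ (Finset.univ : Finset (Fin N)) ×ˢ (s ×ˢ s),
        {g | 4 < ∑ p, c t.2.1 t.2.2 p * (g (t.1, p) / √(d : ℝ))} := by
    rintro g ⟨l, hl⟩
    by_contra hcon
    simp only [Set.mem_iUnion, not_exists, Set.mem_ofPred_eq, not_lt] at hcon
    have := opNorm_le_of_net hs (K := 4)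
      (M := Matrix.toEuclideanCLM (n := Fin d) (𝕜 := ℂ) (gue N d g l)) fun x hx z hz => by
        have h1 := hcon (l, z, x) (by simp [hx, hz])
        rw [gue, matrixTuple, hc2 z x (hs1 z hz) (hs1 x hx)]
        exact h1
    linarith
  refine (measureReal_mono hsub (measure_ne_top _ _)).trans ((measureReal_biUnion_finset_le _ _).trans ?_)
  refine (Finset.sum_le_card_nsmul _ _ (Real.exp (-8 * d)) fun t _ =>
    chernoff t.1 (hc1 _ _)).trans ?_
  rw [Finset.card_product, Finset.card_product, Finset.card_univ, Fintype.card_fin, nsmul_eq_mul,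
    mul_pow, ← Real.exp_nat_mul, mul_comm (d : ℝ), ← mul_assoc (N : ℝ)]
  refine mul_le_mul_of_nonneg_right ?_ (Real.exp_pos _).le
  have h1 : s.card * s.card ≤ 625 ^ d := by
    refine (Nat.mul_le_mul hcard hcard).trans (le_of_eq ?_)
    rw [← pow_add, ← add_mul, pow_mul]; norm_num
  exact_mod_cast Nat.mul_le_mul_left N h1

end NormAux

theorem gue_norm (N : ℕ) :
    Tendsto (fun d => R350.gm (Co N d)
      {g | ∃ l, 16 < ‖Matrix.toEuclideanCLM (n := Fin d) (𝕜 := ℂ) (gue N d g l)‖}) atTop (𝓝 0) := by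
  have h1 : 625 * Real.exp (-8) < 1 := by
    have h2 : (625 : ℝ) < Real.exp 8 := by
      have h3 : Real.exp 8 = Real.exp 1 ^ 8 := by rw [← Real.exp_nat_mul]; norm_num
      have h4 : (2.5 : ℝ) ≤ Real.exp 1 := by have := Real.exp_one_gt_d9; linarith
      rw [h3]
      exact lt_of_lt_of_le (by norm_num) (pow_le_pow_left₀ (by norm_num) h4 8)
    rw [Real.exp_neg, ← div_eq_mul_inv, div_lt_one (Real.exp_pos _)]
    exact h2
  have h2 : Tendsto (fun d : ℕ => (N : ℝ) * (625 * Real.exp (-8)) ^ d) atTop (𝓝 0) := by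
    simpa using (tendsto_pow_atTop_nhds_zero_of_lt_one (by positivity) h1).const_mul (N : ℝ)
  have h3 := ENNReal.tendsto_ofReal h2
  rw [ENNReal.ofReal_zero] at h3
  refine tendsto_of_tendsto_of_tendsto_of_le_of_le tendsto_const_nhds h3 (fun _ => zero_le)
    fun d => ?_
  rw [← ofReal_measureReal]
  exact ENNReal.ofReal_le_ofReal (NormAux.tail_le N d)

end Crest.Agent.R89
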