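import Crest.Agent.R89.GueMom
import Crest.Agent.R89.GueNorm
import Crest.Agent.R89.Poly

/-!
# Row 89: the microstates entropy is finite (task R89-Lower)

PLAN.  Take `R = 100 * (∑ σ j)` and show `∑ log (σ j) - 1 ≤ chiCutoff`.  Fix `m, ε`.  Finitely many words
have length `≤ m` (`List.finite_length_le`), words are continuous, so for small `η ≤ 1` and `q j` with
`‖q j - f j‖ ≤ η` on `[-16, 16]` (`exists_poly_near`; `q 0 = q 1 = 0`) the tuple
`Z' j = σ j • (G j + cj (q j) (G 1) (G 0))` has moments within `ε/2` of those of `Z` (`fc_poly`, `cj_eq`,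
`norm_fc_le`).  `Z' = polyEval G ∘ P`, `wordEval Z' w = polyEval G (wordEval P w)`; `approx_poly` (all words,
one `(m', ε')`), `gue_moment` with `μ w = τ (wv G w)` (`star_wv`), `gue_norm`: eventually the set `E` of `g`
with `‖gue g l‖ ≤ 16` and moments up to `m'` within `ε'` has `gm E ≥ 1/2` (complement small; `measure_union_le`,
no measurability needed).  For `g ∈ E` the tuple `σ j • (M j + cj (q j) (M 1) (M 0))`, `M = gue g`, is a
microstate (`‖aeval M q‖ ≤ 2` by `fc_poly`, `norm_fc_le` in `EuclideanSpace ℂ (Fin d) →L[ℂ] _`).  Volumes: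
`gm ≤ volume` (density `≤ 1`; `Measure.pi` is monotone: `OuterMeasure.le_pi`, or `withDensity`), the
scalings `a ↦ a / √d`, `a (j,p) ↦ σ j * a (j,p)` (`Measure.addHaar_preimage_linearMap`, `Matrix.det_diagonal`,
or `Real.map_linearMap_volume_pi_eq_smul_volume_pi`), `exists_shear` with `r = 1`, `Measure.le_map_apply`:
`vol Γ ≥ (1/2) (∏ σ j) ^ (d²) d ^ (-(n+2) d²/2)`.  `Filter.le_limsup_of_frequently_le`.
Put auxiliary lemmas in `namespace LowerAux`.
-/

set_option autoImplicit false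

namespace Crest.Agent.R89

open Crest.Agent.R95 Crest.Agent.R134 Crest.OpAlg Polynomial MeasureTheory

namespace LowerAux

open Filter Topology
open scoped ENNReal

/-! ### volumes -/

theorem pi_mono {ι α : Type} [Fintype ι] [MeasurableSpace α] {μ ν : Measure α} [SigmaFinite μ]
    (h : μ ≤ ν) (s : Set (ι → α)) :
    Measure.pi (fun _ : ι => μ) s ≤ Measure.pi (fun _ : ι => ν) s := by
  have h1 : (Measure.pi (fun _ : ι => μ)).toOuterMeasure ≤
      OuterMeasure.pi fun _ : ι => ν.toOuterMeasure := by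
    rw [OuterMeasure.le_pi]
    intro t _
    rw [Measure.toOuterMeasure_apply, Measure.pi_pi]
    exact Finset.prod_le_prod' fun i _ => h (t i)
  refine (h1 s).trans ?_
  rw [Measure.pi_def]
  exact le_toMeasure_apply _ _ s

theorem gauss_le : ProbabilityTheory.gaussianReal 0 1 ≤ (volume : Measure ℝ) := by
  rw [ProbabilityTheory.gaussianReal_of_var_ne_zero 0 one_ne_zero]
  conv_rhs => rw [← withDensity_one (μ := (volume : Measure ℝ))]
  refine withDensity_mono (Eventually.of_forall fun x => ?_)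
  rw [ProbabilityTheory.gaussianPDF, Pi.one_apply, ENNReal.ofReal_le_one,
    ProbabilityTheory.gaussianPDFReal]
  have h1 : 1 ≤ √(2 * Real.pi * ((1 : NNReal) : ℝ)) := by
    rw [Real.one_le_sqrt, NNReal.coe_one]
    have := Real.pi_gt_three
    linarith
  refine mul_le_one₀ (inv_le_one_of_one_le₀ h1) (Real.exp_pos _).le ?_
  rw [Real.exp_le_one_iff, NNReal.coe_one]
  have := sq_nonneg (x - 0)
  linarith

theorem gm_le {ι : Type} [Fintype ι] (s : Set (ι → ℝ)) : R350.gm ι s ≤ volume s :=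
  pi_mono gauss_le s

theorem pre_le {α β : Type} [MeasurableSpace α] [MeasurableSpace β] {μ : Measure α}
    {ν : Measure β} {T : α → β} (hT : MeasurePreserving T μ ν) (s : Set β) :
    μ (T ⁻¹' s) ≤ ν s := by
  rw [← hT.map_eq]
  exact Measure.le_map_apply hT.measurable.aemeasurable s

theorem vol_diag {ι : Type} [Fintype ι] {c : ι → ℝ} (hc : ∀ i, 0 < c i) (s : Set (ι → ℝ)) :
    ENNReal.ofReal (∏ i, c i) * volume ((fun (g : ι → ℝ) i => c i * g i) ⁻¹' s) = volume s := by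
  classical
  have hp : 0 < ∏ i, c i := Finset.prod_pos fun i _ => hc i
  have hdet : LinearMap.det (Matrix.toLin' (Matrix.diagonal c)) = ∏ i, c i := by
    rw [LinearMap.det_toLin', Matrix.det_diagonal]
  have h := Measure.addHaar_preimage_linearMap (volume : Measure (ι → ℝ))
    (f := Matrix.toLin' (Matrix.diagonal c)) (by rw [hdet]; exact hp.ne') s
  have e : (fun (g : ι → ℝ) i => c i * g i) = Matrix.toLin' (Matrix.diagonal c) := by
    ext g i; rw [Matrix.toLin'_apply, Matrix.mulVec_diagonal]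
  rw [e, h, hdet, ← mul_assoc, ← ENNReal.ofReal_mul hp.le, abs_of_pos (inv_pos.2 hp),
    mul_inv_cancel₀ hp.ne', ENNReal.ofReal_one, one_mul]

theorem vol_ge {ι : Type} [Fintype ι] {c c' : ι → ℝ} (hc : ∀ i, 0 < c i) (hc' : ∀ i, 0 < c' i)
    {T : EuclideanSpace ℝ ι → EuclideanSpace ℝ ι} (hT : MeasurePreserving T volume volume)
    {E : Set (ι → ℝ)} {Γ : Set (EuclideanSpace ℝ ι)}
    (h : ∀ g ∈ E, WithLp.toLp 2 (fun i => c' i * T (WithLp.toLp 2 fun i => c i * g i) i) ∈ Γ) :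
    ENNReal.ofReal (∏ i, c' i) * (ENNReal.ofReal (∏ i, c i) * R350.gm ι E) ≤ volume Γ := by
  refine le_trans ?_ (pre_le (PiLp.volume_preserving_toLp ι) Γ)
  rw [← vol_diag hc']
  gcongr
  refine le_trans ?_ (pre_le (PiLp.volume_preserving_ofLp ι) _)
  refine le_trans ?_ (pre_le hT _)
  refine le_trans ?_ (pre_le (PiLp.volume_preserving_toLp ι) _)
  rw [← vol_diag hc]
  exact mul_le_mul_right ((gm_le E).trans (measure_mono h)) _

theorem tendsto_biUnion {ι : Type} {Ω : ℕ → Type} [∀ d, MeasurableSpace (Ω d)]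
    {μ : ∀ d, Measure (Ω d)} {S : Set ι} (hS : S.Finite) {E : ∀ d, ι → Set (Ω d)}
    (h : ∀ i ∈ S, Tendsto (fun d => μ d (E d i)) atTop (𝓝 0)) :
    Tendsto (fun d => μ d (⋃ i ∈ S, E d i)) atTop (𝓝 0) := by
  lift S to Finset ι using hS
  have h1 := tendsto_finsetSum S h
  rw [Finset.sum_const_zero] at h1
  exact tendsto_of_tendsto_of_tendsto_of_le_of_le tendsto_const_nhds h1 (fun _ => zero_le)
    fun d => measure_biUnion_finset_le S (E d)

theorem finite_words (N m : ℕ) :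
    {w : FreeMonoid (Fin N) | (FreeMonoid.toList w).length ≤ m}.Finite :=
  (List.finite_length_le (Fin N) m).preimage FreeMonoid.toList.injective.injOn

/-- the final estimate in the extended reals -/
theorem final {n : ℕ} {s : ℝ} (hs : 0 < s) {V : ℕ → ℝ≥0∞}
    (h : ∀ᶠ d : ℕ in atTop, ENNReal.ofReal (s ^ (d * d)) *
      (ENNReal.ofReal ((√(d : ℝ))⁻¹ ^ (n * (d * d))) * (1 / 2)) ≤ V d) :
    ((Real.log s - 1 : ℝ) : EReal) ≤ limsup
      (fun d : ℕ => ((((d : ℝ) ^ 2)⁻¹ : ℝ) : EReal) * (V d).log +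
        (((n : ℝ) / 2 * Real.log d : ℝ) : EReal)) atTop := by
  refine le_limsup_of_frequently_le (Eventually.frequently ?_)
  filter_upwards [h, eventually_ge_atTop 1] with d hd hd1
  have hd0 : (1 : ℝ) ≤ d := Nat.one_le_cast.2 hd1
  have hsq : 0 < √(d : ℝ) := Real.sqrt_pos.2 (by linarith)
  have e : (1 / 2 : ℝ≥0∞) = ENNReal.ofReal (1 / 2) := by
    rw [ENNReal.ofReal_div_of_pos two_pos]; simp
  rw [e, ← ENNReal.ofReal_mul (by positivity), ← ENNReal.ofReal_mul (by positivity)] at hd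
  have h1 := ENNReal.log_le_log hd
  rw [ENNReal.log_ofReal_of_pos (by positivity)] at h1
  have h2 := mul_le_mul_of_nonneg_left h1
    (show (0 : EReal) ≤ ((((d : ℝ) ^ 2)⁻¹ : ℝ) : EReal) from EReal.coe_nonneg.2 (by positivity))
  refine le_trans ?_ (add_le_add_left h2 _)
  rw [← EReal.coe_mul, ← EReal.coe_add, EReal.coe_le_coe_iff, Real.log_mul (by positivity)
    (by positivity), Real.log_mul (by positivity) (by positivity), Real.log_pow, Real.log_pow,
    Real.log_inv, Real.log_sqrt (by linarith), one_div, Real.log_inv]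
  have h3 : Real.log 2 ≤ 1 := by have := Real.log_two_lt_d9; linarith
  have h4 : ((d : ℝ) ^ 2)⁻¹ * Real.log 2 ≤ 1 :=
    mul_le_one₀ (inv_le_one_of_one_le₀ (one_le_pow₀ hd0)) (Real.log_nonneg one_le_two) h3
  have h5 : ((d : ℝ) ^ 2)⁻¹ * (((d * d : ℕ) : ℝ) * Real.log s +
      (((n * (d * d) : ℕ) : ℝ) * -(Real.log d / 2) + -Real.log 2)) + n / 2 * Real.log d =
      Real.log s - ((d : ℝ) ^ 2)⁻¹ * Real.log 2 := by
    push_cast; field_simp; ring
  rw [h5]; linarith

/-! ### polynomials -/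

theorem norm_cj_le {B : Type} [CStarAlgebra B] {a b : B} (ha : IsSelfAdjoint a) (h16 : ‖a‖ ≤ 16)
    {q : ℂ[X]} (hq : ∀ x : ℝ, |x| ≤ 16 → ‖q.eval (x : ℂ)‖ ≤ 2) : ‖cj q a b‖ ≤ 4 * ‖b‖ := by
  have h1 : ‖aeval a q‖ ≤ 2 := by
    rw [← fc_poly ha]
    exact norm_fc_le zero_le_two fun x hx => hq x (hx.trans h16)
  rw [cj_eq q ha.star_eq]
  refine (norm_mul_le _ _).trans ?_
  rw [norm_star]
  have h2 := (norm_mul_le (aeval a q) b).trans (mul_le_mul_of_nonneg_right h1 (norm_nonneg _))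
  refine (mul_le_mul h2 h1 (norm_nonneg _) (by positivity)).trans (le_of_eq ?_)
  ring

/-- the sheared tuple -/
noncomputable def sh {R : Type} [Ring R] [Algebra ℂ R] {n : ℕ} (σ : Fin (n + 2) → ℝ)
    (q : Fin (n + 2) → ℂ[X]) (Y : Fin (n + 2) → R) (j : Fin (n + 2)) : R :=
  (σ j : ℂ) • (Y j + cj (q j) (Y 1) (Y 0))

theorem wordEval_sh {R : Type} [Ring R] [Algebra ℂ R] {n : ℕ} (σ : Fin (n + 2) → ℝ)
    (q : Fin (n + 2) → ℂ[X]) (Y : Fin (n + 2) → R) (w : FreeMonoid (Fin (n + 2))) :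
    polyEval Y (wordEval (sh σ q fun k =>
      (MonoidAlgebra.of ℂ _ (FreeMonoid.of k) : NCPoly (n + 2))) w) = wordEval (sh σ q Y) w := by
  rw [polyEval, wordEval_eq, wordEval_eq, map_wv]
  congr 1
  funext j
  simp only [sh, map_smul, map_add, map_cj, MonoidAlgebra.lift_of, FreeMonoid.lift_eval_of]

theorem continuous_wv {A K T : Type} [TopologicalSpace T] [Monoid A] [TopologicalSpace A]
    [ContinuousMul A] {Y : T → K → A} (hY : ∀ k, Continuous fun t => Y t k) (w : List K) :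
    Continuous fun t => wv (Y t) w := by
  induction w with
  | nil => exact continuous_const
  | cons k w ih => simp only [wv_cons]; exact (hY k).mul ih

theorem exists_q {A : Type} [CStarAlgebra A] (τ : Tr A) {n : ℕ} {G : Fin (n + 2) → A}
    (hsa : ∀ j, IsSelfAdjoint (G j)) (hn : ∀ j, ‖G j‖ ≤ 2) (σ : Fin (n + 2) → ℝ)
    {f : Fin (n + 2) → ℝ → ℂ} (hf : ∀ j, Continuous (f j)) (hf1 : ∀ j x, ‖f j x‖ ≤ 1)
    (f0 : f 0 = 0) (f1 : f 1 = 0) {Z : Fin (n + 2) → A}
    (hZ : ∀ j, Z j = (σ j : ℂ) • (G j + fc (f j) (G 1) * G 0 * star (fc (f j) (G 1))))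
    (m : ℕ) {ε : ℝ} (hε : 0 < ε) :
    ∃ q : Fin (n + 2) → ℂ[X], q 0 = 0 ∧ q 1 = 0 ∧
      (∀ j (x : ℝ), |x| ≤ 16 → ‖(q j).eval (x : ℂ)‖ ≤ 2) ∧
      ∀ w : FreeMonoid (Fin (n + 2)), (FreeMonoid.toList w).length ≤ m →
        ‖τ.φ (wordEval (sh σ q G) w) - τ.φ (wordEval Z w)‖ < ε := by
  let F : (Fin (n + 2) → A) → Fin (n + 2) → A := fun U j =>
    (σ j : ℂ) • (G j + U j * G 0 * star (U j))
  have hF : ∀ j, Continuous fun U => F U j := fun j => by
    simp only [F]; fun_prop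
  have hZ' : Z = F fun j => fc (f j) (G 1) := funext hZ
  have hev : ∀ᶠ U in 𝓝 (fun j => fc (f j) (G 1)),
      ∀ w ∈ {w : FreeMonoid (Fin (n + 2)) | (FreeMonoid.toList w).length ≤ m},
        ‖τ.φ (wordEval (F U) w) - τ.φ (wordEval Z w)‖ < ε := by
    rw [eventually_all_finite (finite_words _ m)]
    intro w _
    have hc : Continuous fun U => τ.φ (wordEval (F U) w) := by
      simp only [wordEval_eq]
      exact τ.φ.continuous.comp (continuous_wv hF _)
    have := Metric.tendsto_nhds.1 (hc.tendsto fun j => fc (f j) (G 1)) ε hε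
    simpa only [dist_eq_norm, hZ'] using this
  obtain ⟨δ, hδ, hev⟩ := Metric.eventually_nhds_iff.1 hev
  have hq : ∀ j, ∃ q : ℂ[X], (f j = 0 → q = 0) ∧
      ∀ x : ℝ, |x| ≤ 16 → ‖q.eval (x : ℂ) - f j x‖ ≤ min 1 (δ / 2) := by
    intro j
    by_cases h : f j = 0
    · exact ⟨0, fun _ => rfl, fun x _ => by simp [h]; positivity⟩
    · obtain ⟨q, hq⟩ := exists_poly_near (hf j) 16 (ε := min 1 (δ / 2)) (by positivity)
      exact ⟨q, fun h' => absurd h' h, hq⟩
  choose q hq0 hq using hq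
  refine ⟨q, hq0 0 f0, hq0 1 f1, fun j x hx => ?_, fun w hw => ?_⟩
  · have h1 := (hq j x hx).trans (min_le_left _ _)
    have h2 := norm_add_le ((q j).eval (x : ℂ) - f j x) (f j x)
    rw [sub_add_cancel] at h2
    linarith [hf1 j x]
  · have e : sh σ q G = F fun j => aeval (G 1) (q j) := by
      funext j; simp only [sh, F, cj_eq _ (hsa 1).star_eq]
    rw [e]
    refine hev ?_ w hw
    rw [dist_pi_lt_iff hδ]
    intro j
    have hc : Continuous fun x : ℝ => (q j).eval (x : ℂ) :=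
      (q j).continuous.comp Complex.continuous_ofReal
    rw [dist_eq_norm, ← fc_poly (hsa 1), ← fc_sub hc (hf j)]
    refine lt_of_le_of_lt (norm_fc_le (C := δ / 2) (by positivity) fun x hx => ?_) (by linarith)
    exact (hq j x (by linarith [hn 1])).trans (min_le_right _ _)

theorem tendsto_poly {A : Type} [CStarAlgebra A] (τ : Tr A) {N : ℕ} {G : Fin N → A}
    (hsa : ∀ j, IsSelfAdjoint (G j))
    (hsd : ∀ e w, τ.φ (wv G (e :: w)) = ssum e (fun a b => τ.φ (wv G a) * τ.φ (wv G b)) w)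
    (P : NCPoly N) {η : ℝ} (hη : 0 < η) :
    Tendsto (fun d => R350.gm (Co N d) {g | η ≤
      ‖(d : ℂ)⁻¹ * Matrix.trace (polyEval (gue N d g) P) - τ.φ (polyEval G P)‖}) atTop (𝓝 0) := by
  obtain ⟨m, ε, hε, h⟩ := approx_poly (tl τ) G P hη
  have h1 := tendsto_biUnion (μ := fun d => R350.gm (Co N d)) (finite_words N m)
    (E := fun d w => {g | ε ≤ ‖tw N d g (FreeMonoid.toList w) - τ.φ (wv G (FreeMonoid.toList w))‖})
    fun w _ => gue_moment (μ := fun w => τ.φ (wv G w)) τ.one hsd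
      (fun w => by rw [← star_wv fun k => (hsa k).star_eq, τ.star]) _ hε
  refine tendsto_of_tendsto_of_tendsto_of_le_of_le tendsto_const_nhds h1 (fun _ => zero_le)
    fun d => measure_mono fun g hg => ?_
  by_contra hcon
  simp only [Set.mem_iUnion, not_exists, Set.mem_ofPred_eq, not_le] at hcon hg
  refine absurd (h d (gue N d g) fun w hw => ?_) (not_lt.2 hg)
  rw [matrixMoment, wordEval_eq, wordEval_eq]
  exact hcon w hw

theorem matrixTuple_scale {N d : ℕ} (σ : Fin N → ℝ) (a : EuclideanSpace ℝ (Co N d)) (j : Fin N) :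
    matrixTuple (WithLp.toLp 2 fun p : Co N d => σ p.1 * a p) j = (σ j : ℂ) • matrixTuple a j := by
  rw [matrixTuple, matrixTuple, ← herm_smul]
  rfl

theorem norm_sh_le {n d : ℕ} {σ : Fin (n + 2) → ℝ} (hσ : ∀ j, 0 < σ j)
    {q : Fin (n + 2) → ℂ[X]} (hq : ∀ j (x : ℝ), |x| ≤ 16 → ‖(q j).eval (x : ℂ)‖ ≤ 2)
    {M : Fin (n + 2) → Matrix (Fin d) (Fin d) ℂ} (hM : ∀ j, star (M j) = M j)
    (h16 : ∀ j, ‖Matrix.toEuclideanCLM (n := Fin d) (𝕜 := ℂ) (M j)‖ ≤ 16) (j : Fin (n + 2)) :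
    ‖Matrix.toEuclideanCLM (n := Fin d) (𝕜 := ℂ) (sh σ q M j)‖ ≤ 100 * ∑ j, σ j := by
  have e : Matrix.toEuclideanCLM (n := Fin d) (𝕜 := ℂ) (cj (q j) (M 1) (M 0)) =
      cj (q j) (Matrix.toEuclideanCLM (n := Fin d) (𝕜 := ℂ) (M 1))
        (Matrix.toEuclideanCLM (n := Fin d) (𝕜 := ℂ) (M 0)) := by
    simp only [cj, map_mul, aeval_algHom_apply]
  have hsa : IsSelfAdjoint (Matrix.toEuclideanCLM (n := Fin d) (𝕜 := ℂ) (M 1)) := by
    rw [IsSelfAdjoint, ← map_star, hM]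
  have h1 := norm_cj_le (b := Matrix.toEuclideanCLM (n := Fin d) (𝕜 := ℂ) (M 0)) hsa (h16 1) (hq j)
  have h2 : σ j ≤ ∑ j, σ j := Finset.single_le_sum (fun i _ => (hσ i).le) (Finset.mem_univ j)
  rw [sh, map_smul, map_add, e, norm_smul, Complex.norm_real, Real.norm_eq_abs, abs_of_pos (hσ j),
    mul_comm]
  refine mul_le_mul ((norm_add_le _ _).trans ?_) h2 (hσ j).le (by norm_num)
  linarith [h16 j, h16 0]

end LowerAux

open Filter Topology LowerAux in
theorem bot_lt_chi {A : Type} [CStarAlgebra A] (τ : Tr A) {n : ℕ} {G : Fin (n + 2) → A}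
    (hsa : ∀ j, IsSelfAdjoint (G j)) (hn : ∀ j, ‖G j‖ ≤ 2)
    (hsd : ∀ e w, τ.φ (wv G (e :: w)) = ssum e (fun a b => τ.φ (wv G a) * τ.φ (wv G b)) w)
    {σ : Fin (n + 2) → ℝ} (hσ : ∀ j, 0 < σ j) {f : Fin (n + 2) → ℝ → ℂ}
    (hf : ∀ j, Continuous (f j)) (hf1 : ∀ j x, ‖f j x‖ ≤ 1) (f0 : f 0 = 0) (f1 : f 1 = 0)
    {Z : Fin (n + 2) → A}
    (hZ : ∀ j, Z j = (σ j : ℂ) • (G j + fc (f j) (G 1) * G 0 * star (fc (f j) (G 1)))) :
    ⊥ < chi (tl τ) Z := by
  have hR : 0 < 100 * ∑ j, σ j :=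
    mul_pos (by norm_num) (Finset.sum_pos (fun j _ => hσ j) Finset.univ_nonempty)
  have hs : 0 < ∏ j, σ j := Finset.prod_pos fun j _ => hσ j
  refine lt_of_lt_of_le (EReal.bot_lt_coe (Real.log (∏ j, σ j) - 1))
    (le_trans ?_ (le_iSup₂_of_le (f := fun R (_ : 0 < R) => chiCutoff (tl τ) Z R) _ hR le_rfl))
  refine le_iInf fun m => le_iInf₂ fun ε hε => final hs ?_
  obtain ⟨q, hq0, hq1, hq2, hq⟩ := exists_q τ hsa hn σ hf hf1 f0 f1 hZ m (half_pos hε)
  have h1 := tendsto_biUnion (μ := fun d => R350.gm (Co (n + 2) d)) (finite_words (n + 2) m)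
    fun w _ => tendsto_poly τ hsa hsd (wordEval (sh σ q fun k =>
      (MonoidAlgebra.of ℂ _ (FreeMonoid.of k) : NCPoly (n + 2))) w) (half_pos hε)
  have h2 := (gue_norm (n + 2)).add h1
  rw [add_zero] at h2
  filter_upwards [h2.eventually (gt_mem_nhds (show (0 : ENNReal) < 1 / 2 by simp)),
    eventually_ge_atTop 1] with d hd hd1
  have hsq : 0 < √(d : ℝ) := Real.sqrt_pos.2 (Nat.cast_pos.2 hd1)
  obtain ⟨T, hT, hT'⟩ := exists_shear d 1 hq0 hq1
  set B := {g : Co (n + 2) d → ℝ | ∃ l, 16 <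
      ‖Matrix.toEuclideanCLM (n := Fin d) (𝕜 := ℂ) (gue (n + 2) d g l)‖} ∪
    ⋃ w ∈ {w : FreeMonoid (Fin (n + 2)) | (FreeMonoid.toList w).length ≤ m},
      {g | ε / 2 ≤ ‖(d : ℂ)⁻¹ * Matrix.trace (polyEval (gue (n + 2) d g) (wordEval (sh σ q fun k =>
        (MonoidAlgebra.of ℂ _ (FreeMonoid.of k) : NCPoly (n + 2))) w)) -
        τ.φ (polyEval G (wordEval (sh σ q fun k =>
          (MonoidAlgebra.of ℂ _ (FreeMonoid.of k) : NCPoly (n + 2))) w))‖} with hB
  have hB1 : R350.gm (Co (n + 2) d) B ≤ 1 / 2 := (measure_union_le _ _).trans hd.le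
  have hB2 : 1 / 2 ≤ R350.gm (Co (n + 2) d) Bᶜ := by
    have h3 := measure_univ_le_add_compl (μ := R350.gm (Co (n + 2) d)) B
    rw [measure_univ] at h3
    have h4 : (1 / 2 : ENNReal) + 1 / 2 ≤ 1 / 2 + R350.gm (Co (n + 2) d) Bᶜ := by
      rw [ENNReal.add_halves]
      exact h3.trans (add_le_add_left hB1 _)
    exact (ENNReal.add_le_add_iff_left (by simp)).1 h4
  have key := vol_ge (c := fun _ : Co (n + 2) d => (√(d : ℝ))⁻¹) (c' := fun p => σ p.1)
    (fun _ => inv_pos.2 hsq) (fun p => hσ p.1) hT (E := Bᶜ)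
    (Γ := microstates (tl τ) Z (100 * ∑ j, σ j) m d ε) (by
      intro g hg
      have e : matrixTuple (WithLp.toLp 2 fun p : Co (n + 2) d =>
          σ p.1 * T (WithLp.toLp 2 fun p => (√(d : ℝ))⁻¹ * g p) p) =
          sh σ q (gue (n + 2) d g) := by
        funext j
        rw [matrixTuple_scale, hT', Complex.ofReal_one, one_smul]
        simp only [sh, gue, div_eq_inv_mul]
      simp only [hB, Set.mem_compl_iff, Set.mem_union, Set.mem_iUnion, Set.mem_ofPred_eq, not_or,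
        not_exists, not_lt, not_le, wordEval_sh] at hg
      refine ⟨fun l => ?_, fun w hw => ?_⟩
      · rw [e]
        exact norm_sh_le hσ hq2 (fun j => herm_star _) hg.1 l
      · rw [e, matrixMoment]
        have h5 := hg.2 w hw
        have h6 := hq w hw
        refine lt_of_le_of_lt (norm_sub_le_norm_sub_add_norm_sub _
          (τ.φ (wordEval (sh σ q G) w)) _) ?_
        change _ + ‖_ - τ.φ (wordEval Z w)‖ < ε
        linarith)
  refine le_trans ?_ key
  rw [Finset.prod_const, Fintype.prod_prod_type]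
  simp only [Finset.prod_const, Finset.card_univ, Fintype.card_prod, Fintype.card_fin,
    Finset.prod_pow]
  gcongr

end Crest.Agent.R89
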