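import Crest.Agent.R89.Model
import Crest.Agent.R89.FreeFam
import Crest.Agent.R89.Integral
import Crest.Agent.R89.BdOne
import Crest.Agent.R89.BdMid
import Crest.Agent.R89.Upper
import Crest.Agent.R89.Lower

/-!
# Row 89: assembly
-/

set_option autoImplicit false

namespace Crest.Agent.R89

open Crest.Agent.R95 Crest.Agent.R134 Crest.OpAlg Polynomial MeasureTheory
open scoped InnerProductSpace ComplexConjugate

variable {A : Type} [CStarAlgebra A] {H : Type} [NormedAddCommGroup H] [InnerProductSpace ℂ H]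
  [CompleteSpace H] {τ : Tr A} {ι : A →⋆ₐ[ℂ] (H →L[ℂ] H)} {R : A →L[ℂ] (H →L[ℂ] H)} {Ω : H}
  {n : ℕ} {l : Fin (n + 2) ⊕ Fin (n + 2) → H →L[ℂ] H} {X : Fin (n + 2) ⊕ Fin (n + 2) → A}
  {lam s : ℝ}

namespace Fin89

theorem bd_min {K : Type} [DecidableEq K] {Y : K → A} {i : K} {B B' : ℝ} (h : Bd τ Y i B)
    (h' : Bd τ Y i B') : Bd τ Y i (min B B') := by
  rcases min_choice B B' with e | e <;> rwa [e]

theorem min_sq_le {a K : ℝ} (hK : 0 ≤ K) (hs : 0 < a) : min K (√a)⁻¹ ^ 2 ≤ min (K ^ 2) a⁻¹ := by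
  have h0 : 0 ≤ min K (√a)⁻¹ := le_min hK (by positivity)
  refine le_min (pow_le_pow_left₀ h0 (min_le_left _ _) 2) ?_
  refine (pow_le_pow_left₀ h0 (min_le_right _ _) 2).trans_eq ?_
  rw [inv_pow, Real.sq_sqrt hs.le]

theorem succ_succ_ne (i : Fin n) : i.succ.succ ≠ (0 : Fin (n + 2)) ∧ i.succ.succ ≠ 1 :=
  ⟨Fin.succ_ne_zero _, fun h => Fin.succ_ne_zero i (Fin.succ_injective _ (h.trans rfl))⟩

theorem fisher_YY (h : FM τ ι R Ω l X) (hl : 0 < lam) (hs : 0 < s) {b : ℝ}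
    (hb : ∀ i, i ≠ 0 → i ≠ 1 → Bd τ (YY X lam s) i b) :
    freeFisher (tl τ) (YY X lam s) ≤ ENNReal.ofReal (min (((n : ℝ) + 1) ^ 2) s⁻¹ +
      min ((100 * ((n : ℝ) + 2) ^ 4 / lam) ^ 2) s⁻¹ + n * b ^ 2) := by
  let B : Fin (n + 2) → ℝ := Fin.cons (min ((n : ℝ) + 1) (√s)⁻¹)
    (Fin.cons (min (100 * ((n : ℝ) + 2) ^ 4 / lam) (√s)⁻¹) fun _ => b)
  have hB : ∀ i, Bd τ (YY X lam s) i (B i) := by
    intro i
    refine Fin.cases ?_ (fun i => Fin.cases ?_ (fun i => ?_) i) i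
    · exact bd_min (h.bd_zero lam s) (h.bd_triv lam hs 0)
    · exact bd_min (h.bd_one hl s) (h.bd_triv lam hs 1)
    · exact hb _ (succ_succ_ne i).1 (succ_succ_ne i).2
  refine (fisher_le τ (h.YY_sa lam s) hB).trans (ENNReal.ofReal_le_ofReal ?_)
  rw [Fin.sum_univ_succ, Fin.sum_univ_succ]
  simp only [B, Fin.cons_zero, Fin.cons_succ, Finset.sum_const, Finset.card_univ, Fintype.card_fin,
    nsmul_eq_mul]
  have h1 := min_sq_le (K := (n : ℝ) + 1) (by positivity) hs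
  have h2 := min_sq_le (K := 100 * ((n : ℝ) + 2) ^ 4 / lam) (by positivity) hs
  linarith

theorem mid_ineq (h4 : 4 ≤ s) (h5 : s ≤ 5) :
    ((√(2 + s) + 1 / 1000) / (2 + s)) ^ 2 ≤ 1 / (1 + s) - 1 / 50 := by
  have h1 : √(2 + s) ^ 2 = 2 + s := Real.sq_sqrt (by linarith)
  have h2 : √(2 + s) ≤ 3 := Real.sqrt_le_iff.2 ⟨by norm_num, by linarith⟩
  have h3 : (√(2 + s) + 1 / 1000) ^ 2 ≤ 2 + s + 7 / 1000 := by nlinarith
  rw [div_pow, div_sub_div _ _ (by linarith) (by norm_num), div_le_div_iff₀ (by positivity)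
    (by positivity)]
  refine (mul_le_mul_of_nonneg_right h3 (by positivity)).trans ?_
  nlinarith [mul_nonneg (sub_nonneg.2 h4) (sub_nonneg.2 h5), mul_nonneg (sub_nonneg.2 h5) (sq_nonneg s)]

theorem semi_n2 {x : A} (h : Semi τ x) : τ.n2 x = 1 := by
  have h1 := h.mom 1
  rw [cheb, cheb, cheb, map_sub, τ.one, sub_eq_zero] at h1
  rw [Tr.n2, h.sa.star_eq, h1, Complex.one_re, Real.sqrt_one]

theorem re_sq_le (y : A) : (τ.φ (y ^ 2)).re ≤ τ.n2 y ^ 2 := by
  rw [sq, sq]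
  exact (Complex.re_le_norm _).trans (τ.cs' y y)

theorem ZZ_zero (h : FM τ ι R Ω l X) : ZZ X lam 0 = X (.inl 0) := by
  simp [ZZ, al, ep, th, gg_zero, uz_zero (h.sa _)]

theorem ZZ_one : ZZ X lam 1 = (lam : ℂ) • X (.inl 1) := by
  simp [ZZ, al, ep, th]

theorem ZZ_ge (lam : ℝ) {j : Fin (n + 2)} (h0 : j ≠ 0) (h1 : j ≠ 1) :
    ZZ X lam j = X (.inl j) + uz (X (.inl 1)) (gg j) * X (.inl 0) * star (uz (X (.inl 1)) (gg j)) := by
  simp [ZZ, al, ep, th, h0, h1, star_uz]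

theorem chi_ZZ_le (h : FM τ ι R Ω l X) (hl : 0 < lam) :
    chi (tl τ) (ZZ X lam) ≤ ((((n : ℝ) + 2) / 2 * Real.log (2 * Real.pi * Real.exp 1) + 1 / 2 +
      Real.log lam : ℝ) : EReal) := by
  set δ : ℝ := ((n : ℝ) + 2)⁻¹ with hδ
  have hδ0 : 0 < δ := by positivity
  have hδ1 : δ ≤ 1 := inv_le_one_of_one_le₀ (by linarith [n.cast_nonneg (α := ℝ)])
  choose p hp using fun j : Fin (n + 2) => exists_poly_near
    (f := fun x => Complex.exp (Complex.I * (gg j) * FF x))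
    (by have := continuous_FF; fun_prop) 2 (ε := δ / 18) (by positivity)
  let q : Fin (n + 2) → ℂ[X] := fun j =>
    if j = 0 ∨ j = 1 then 0 else (p j).comp (C (lam : ℂ)⁻¹ * Polynomial.X)
  let v : Fin (n + 2) → ℝ := fun j => (1 + δ) * if j = 1 then lam ^ 2 else 1
  have hv : ∀ j, 0 < v j := fun j => by
    simp only [v]
    split_ifs <;> positivity
  refine (chi_le (tl τ) (ZZ X lam) (q := q) (by simp [q]) (by simp [q]) hv fun j => ?_).trans ?_
  · refine (re_sq_le _).trans_lt ?_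
    by_cases h0 : j = 0
    · subst h0
      simp only [q, v, true_or, if_true, cj_zero, sub_zero, ZZ_zero h, semi_n2 (h.semi _)]
      rw [if_neg Fin.zero_ne_one]
      linarith
    by_cases h1 : j = 1
    · subst h1
      simp only [q, v, or_true, if_true, cj_zero, sub_zero, ZZ_one, τ.n2_smul, semi_n2 (h.semi _),
        Complex.norm_real, Real.norm_eq_abs, mul_one, sq_abs]
      nlinarith [mul_pos hδ0 (sq_pos_of_pos hl)]
    have hA := h.sa (.inl 1)
    have e1 : aeval (ZZ X lam 1) (q j) = aeval (X (.inl 1)) (p j) := by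
      simp only [q, h0, h1, or_self, if_false, aeval_comp, map_mul, aeval_C, aeval_X, ZZ_one]
      rw [← Algebra.smul_def, smul_smul, inv_mul_cancel₀ (by exact_mod_cast hl.ne'), one_smul]
    rw [cj_eq _ (h.ZZ_sa lam 1).star_eq, e1, ZZ_zero h, ZZ_ge lam h0 h1]
    set u := uz (X (.inl 1)) (gg j) with hu
    set y := aeval (X (.inl 1)) (p j) with hy
    have h2 : ‖y - u‖ ≤ δ / 18 := by
      rw [hy, hu, ← fc_poly hA, uz, ← fc_sub (by fun_prop) (by have := continuous_FF; fun_prop)]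
      exact norm_fc_le (by positivity) fun x hx => hp j x (hx.trans (h.semi _).norm_le)
    have h3 : ‖u‖ ≤ 1 := norm_uz_le _ _
    have h4 : ‖y‖ ≤ 2 := by
      have := norm_add_le (y - u) u
      rw [sub_add_cancel] at this
      linarith
    have h5 := (h.semi (.inl 0)).norm_le
    have h6 : ‖(y - u) * X (.inl 0) * star u + y * X (.inl 0) * star (y - u)‖ ≤ δ / 3 := by
      refine (norm_add_le _ _).trans ?_
      have a1 : ‖(y - u) * X (.inl 0) * star u‖ ≤ δ / 18 * 2 * 1 :=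
        norm_mul₃_le.trans (by rw [norm_star]; gcongr)
      have a2 : ‖y * X (.inl 0) * star (y - u)‖ ≤ 2 * 2 * (δ / 18) :=
        norm_mul₃_le.trans (by rw [norm_star]; gcongr)
      linarith
    have e2 : X (.inl j) + u * X (.inl 0) * star u - y * X (.inl 0) * star y = X (.inl j) -
        ((y - u) * X (.inl 0) * star u + y * X (.inl 0) * star (y - u)) := by
      rw [star_sub]; noncomm_ring
    rw [e2]
    have h7 := (τ.n2_sub_le (X (.inl j)) _).trans
      (add_le_add (semi_n2 (h.semi _)).le ((τ.n2_le_norm _).trans h6))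
    refine (pow_le_pow_left₀ (τ.n2_nonneg _) h7 2).trans_lt ?_
    simp only [v, h1, if_false]
    nlinarith
  · rw [EReal.coe_le_coe_iff]
    have e : ∀ j, 1 / 2 * Real.log (2 * Real.pi * Real.exp 1 * v j) =
        1 / 2 * (Real.log (2 * Real.pi * Real.exp 1) + Real.log (1 + δ)) +
          if j = 1 then Real.log lam else 0 := fun j => by
      simp only [v]
      rw [← mul_assoc, Real.log_mul (by positivity) (by split_ifs <;> positivity),
        Real.log_mul (x := 2 * Real.pi * Real.exp 1) (by positivity) (by positivity)]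
      split_ifs
      · rw [Real.log_pow]; push_cast; ring
      · simp
    simp only [e, Finset.sum_add_distrib, Finset.sum_const, Finset.card_univ, Fintype.card_fin,
      nsmul_eq_mul, Finset.sum_ite_eq', Finset.mem_univ, if_true]
    have h1 : Real.log (1 + δ) ≤ δ := by
      linarith [Real.log_le_sub_one_of_pos (x := 1 + δ) (by positivity)]
    have h2 : ((n : ℝ) + 2) * δ = 1 := mul_inv_cancel₀ (by positivity)
    push_cast
    nlinarith [n.cast_nonneg (α := ℝ)]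

theorem bot_lt_chi_ZZ (h : FM τ ι R Ω l X) (hl : 0 < lam) : ⊥ < chi (tl τ) (ZZ X lam) := by
  refine bot_lt_chi τ (G := fun j => X (.inl j)) (fun j => h.sa _) (fun j => (h.semi _).norm_le)
    (h.sd Sum.inl_injective) (σ := fun j => if j = 1 then lam else 1) (fun j => ?_)
    (f := fun j => if j = 0 ∨ j = 1 then 0 else fun x => Complex.exp (Complex.I * (gg j) * FF x))
    (fun j => ?_) (fun j x => ?_) (by simp) (by simp) fun j => ?_
  · split_ifs <;> positivity
  · split_ifs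
    · exact continuous_zero
    · have := continuous_FF; fun_prop
  · split_ifs
    · simp
    · rw [Complex.norm_exp]; simp
  · have e : fc (0 : ℝ → ℂ) (X (.inl 1)) = 0 := by
      exact (fc_const (h.sa (.inl 1)) 0).trans (zero_smul _ _)
    by_cases h0 : j = 0
    · subst h0
      simp [ZZ_zero h, e]
    by_cases h1 : j = 1
    · subst h1
      simp [ZZ_one, e]
    rw [ZZ_ge lam h0 h1]
    simp [h0, h1, uz]

end Fin89

open Fin89

theorem final_core (n : ℕ)
    (hn : 3 + Real.log ((n : ℝ) + 1) + Real.log (100 * ((n : ℝ) + 2) ^ 4) ≤ n / 100) :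
    ∃ (A : Type) (_ : CStarAlgebra A) (τ : A →ₗ[ℂ] ℂ) (X S : Fin (n + 2) → A),
      IsFaithfulTracialState τ ∧ (∀ i, IsSelfAdjoint (X i)) ∧
      IsStandardSemicircular τ S ∧ IsFreeFamily τ (withNoise X S) ∧
      (∀ s : ℝ, 0 < s → freeFisher τ (heatTuple X S s) < ⊤) ∧
      IntegrableOn
        (fun s : ℝ => ((n + 2 : ℕ) : ℝ) / (1 + s) - (freeFisher τ (heatTuple X S s)).toReal)
        (Set.Ioi 0) ∧
      ⊥ < chi τ X ∧ chi τ X ≤ ((chiStar τ X S - 1 / 2 : ℝ) : EReal) := by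
  obtain ⟨A, H, _, _, _, _, τ, ι, R, Ω, l, X, h⟩ := exists_FM (Fin (n + 2) ⊕ Fin (n + 2))
  have hn0 := n.cast_nonneg (α := ℝ)
  obtain ⟨lam, hl, hl1, hN⟩ : ∃ lam : ℝ, 0 < lam ∧ lam ≤ 1 ∧
      ((n : ℝ) + 2) ^ 3 * (2 * lam) ≤ 1 / 1000 := by
    have h1 : 1 ≤ ((n : ℝ) + 2) ^ 3 := one_le_pow₀ (by linarith)
    refine ⟨(2000 * ((n : ℝ) + 2) ^ 3)⁻¹, by positivity, inv_le_one_of_one_le₀ (by linarith), ?_⟩
    field_simp
    norm_num
  have hup := fun s (hs : 0 < s) => fisher_YY h hl hs fun i h0 h1 => h.bd_noise lam hs h0 h1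
  have hfin : ∀ s : ℝ, 0 < s → freeFisher (tl τ) (YY X lam s) < ⊤ := fun s hs =>
    (hup s hs).trans_lt ENNReal.ofReal_lt_top
  have hK : 1 ≤ 100 * ((n : ℝ) + 2) ^ 4 / lam := by
    rw [le_div_iff₀ hl]
    have : 1 ≤ ((n : ℝ) + 2) ^ 4 := one_le_pow₀ (by linarith)
    linarith
  obtain ⟨i1, i2⟩ := integral_bound (Φ := fun s => (freeFisher (tl τ) (YY X lam s)).toReal)
    (measurable_fisher τ _ _).ennreal_toReal hn0 (K₀ := ((n : ℝ) + 1) ^ 2)
    (K₁ := (100 * ((n : ℝ) + 2) ^ 4 / lam) ^ 2) (one_le_pow₀ (by linarith)) (one_le_pow₀ hK)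
    (fun s hs => by
      have := le_fisher τ (h.YY_sa lam s) (V := 2 + s) (by positivity)
        (h.n2_YY_le (by rwa [abs_of_pos hl]) hs.le)
      rw [ENNReal.ofReal_le_iff_le_toReal (hfin s hs).ne] at this
      push_cast at this
      exact this)
    (fun s hs => by
      refine (ENNReal.toReal_le_of_le_ofReal (by positivity) (hup s hs)).trans_eq ?_
      rw [inv_pow, Real.sq_sqrt (by positivity), div_eq_mul_inv (n : ℝ)])
    (fun s h4 h5 => by
      have hs : 0 < s := by linarith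
      refine (ENNReal.toReal_le_of_le_ofReal (by positivity)
        (fisher_YY h hl hs fun i h0 h1 => h.bd_mid hl hN h4 h0 h1)).trans ?_
      have := mul_le_mul_of_nonneg_left (mid_ineq h4 h5) hn0
      rw [mul_sub, mul_one_div, mul_one_div] at this
      linarith)
  refine ⟨A, inferInstance, tl τ, ZZ X lam, SS X, faithful_state h.faithful, h.ZZ_sa lam,
    h.stdSemi Sum.inr, h.freeFam Sum.inr_injective (ZZ_mem lam), hfin, ?_, bot_lt_chi_ZZ h hl,
    (chi_ZZ_le h hl).trans ?_⟩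
  · push_cast
    exact i1
  · rw [EReal.coe_le_coe_iff, chiStar]
    rw [Real.log_pow, Real.log_pow, Real.log_div (by positivity) hl.ne'] at i2
    push_cast at i2 ⊢
    unfold YY at i2
    linarith

theorem gap : 3 + Real.log (((10000 : ℕ) : ℝ) + 1) + Real.log (100 * (((10000 : ℕ) : ℝ) + 2) ^ 4) ≤
    ((10000 : ℕ) : ℝ) / 100 := by
  have h2 : Real.log 2 ≤ 1 := by linarith [Real.log_two_lt_d9]
  have h1 : Real.log (((10000 : ℕ) : ℝ) + 1) ≤ Real.log (2 ^ 14) :=
    Real.log_le_log (by positivity) (by norm_num)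
  have h3 : Real.log (100 * (((10000 : ℕ) : ℝ) + 2) ^ 4) ≤ Real.log (2 ^ 63) :=
    Real.log_le_log (by positivity) (by norm_num)
  rw [Real.log_pow] at h1 h3
  generalize Real.log (((10000 : ℕ) : ℝ) + 1) = a at *
  generalize Real.log (100 * (((10000 : ℕ) : ℝ) + 2) ^ 4) = b at *
  push_cast at h1 h3 ⊢
  linarith

end Crest.Agent.R89
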