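import Crest.Agent.R89.GueStein

/-!
# Row 89: moments of GUE tuples converge in probability (task R89-GueMom)

PLAN.  `tendsto_EE`: strong induction on `(ws.map fun w => w.length + 1).sum`; `EE [] = 1`,
`EE ([] :: ws) = EE ws` for `d ≠ 0`, `EE_cons`, `tendsto_ssum`, `tendsto_asum`, `(d²)⁻¹ → 0`,
`ssum e (μ a * μ b) w * c = ssum e (μ a * μ b * c) w` (`map_ssum`).
`gue_moment`: `conj (tw g w) = tw g w.reverse` (`herm_star`, `star_wv`, `Matrix.trace_conjTranspose`), so
`∫ ‖tw g w - μ w‖² = EE [w, w.reverse] - …  → 0` (`integrable_tw`); Markov's inequality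
(`mul_meas_ge_le_integral_of_nonneg` or `meas_ge_le_lintegral_div`).
Put auxiliary lemmas in `namespace MomAux`.
-/

set_option autoImplicit false

namespace Crest.Agent.R89

open Crest.OpAlg MeasureTheory Filter Topology
open scoped ComplexConjugate

variable {N : ℕ} {μ : List (Fin N) → ℂ}

namespace MomAux

/-- size of a list of words -/
def sz {K : Type*} (ws : List (List K)) : ℕ := (ws.map fun w => w.length + 1).sum

theorem sz_cons {K : Type*} (w : List K) (ws : List (List K)) :
    sz (w :: ws) = w.length + 1 + sz ws := by simp [sz]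

theorem sz_append {K : Type*} (us vs : List (List K)) : sz (us ++ vs) = sz us + sz vs := by
  simp [sz]

theorem tw_nil {d : ℕ} (hd : d ≠ 0) (g : Co N d → ℝ) : tw N d g [] = 1 := by
  rw [tw, wv_nil, Matrix.trace_one, Fintype.card_fin, inv_mul_cancel₀ (Nat.cast_ne_zero.2 hd)]

theorem EE_nil (d : ℕ) : EE N d [] = 1 := by simp [EE]

theorem EE_nil_cons {d : ℕ} (hd : d ≠ 0) (ws : List (List (Fin N))) :
    EE N d ([] :: ws) = EE N d ws := by
  simp only [EE, List.map_cons, List.prod_cons, tw_nil hd, one_mul]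

theorem conj_tw {d : ℕ} (g : Co N d → ℝ) (w : List (Fin N)) :
    conj (tw N d g w) = tw N d g w.reverse := by
  rw [tw, tw, ← star_wv (Y := gue N d g) (fun k => herm_star _), map_mul, map_inv₀, map_natCast,
    Matrix.star_eq_conjTranspose, Matrix.trace_conjTranspose]
  rfl

theorem tendsto_inv_sq : Tendsto (fun d : ℕ => ((d : ℂ) ^ 2)⁻¹) atTop (𝓝 0) := by
  have h := (tendsto_inv_atTop_nhds_zero_nat (𝕜 := ℂ)).pow 2
  simpa only [inv_pow, zero_pow two_ne_zero] using h

end MomAux

open MomAux

theorem tendsto_EE (h0 : μ [] = 1) (hsd : ∀ e w, μ (e :: w) = ssum e (fun a b => μ a * μ b) w)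
    (ws : List (List (Fin N))) : Tendsto (fun d => EE N d ws) atTop (𝓝 (ws.map μ).prod) := by
  induction h : sz ws using Nat.strong_induction_on generalizing ws with
  | _ m ih =>
  subst h
  have ih' : ∀ vs : List (List (Fin N)), sz vs < sz ws →
      Tendsto (fun d => EE N d vs) atTop (𝓝 (vs.map μ).prod) := fun vs hv => ih _ hv vs rfl
  rcases ws with _ | ⟨w, ws⟩
  · simp only [EE_nil, List.map_nil, List.prod_nil]
    exact tendsto_const_nhds
  rcases w with _ | ⟨e, w⟩
  · rw [List.map_cons, List.prod_cons, h0, one_mul]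
    refine (ih' ws (by rw [sz_cons]; omega)).congr' ?_
    filter_upwards [eventually_ne_atTop 0] with d hd
    exact (EE_nil_cons hd ws).symm
  have t1 : Tendsto (fun d => ssum e (fun a b => EE N d (a :: b :: ws)) w) atTop
      (𝓝 (ssum e (fun a b => ((a :: b :: ws).map μ).prod) w)) :=
    tendsto_ssum fun a b hab => ih' _ (by
      rw [← hab]
      simp only [sz_cons, List.length_cons, List.length_append]
      omega)
  have t2 : Tendsto (fun d => asum (fun us v vs =>
        ssum e (fun a b => EE N d ((w ++ b ++ a) :: (us ++ vs))) v) ws) atTop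
      (𝓝 (asum (fun us v vs =>
        ssum e (fun a b => (((w ++ b ++ a) :: (us ++ vs)).map μ).prod) v) ws)) :=
    tendsto_asum fun us v vs hv => tendsto_ssum fun a b hab => ih' _ (by
      rw [← hv, ← hab]
      simp only [sz_cons, sz_append, List.length_cons, List.length_append]
      omega)
  have t3 := t1.add (tendsto_inv_sq.mul t2)
  rw [zero_mul, add_zero] at t3
  have e1 : (((e :: w) :: ws).map μ).prod =
      ssum e (fun a b => ((a :: b :: ws).map μ).prod) w := by
    rw [List.map_cons, List.prod_cons, hsd, SteinAux.ssum_mul]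
    exact ssum_congr fun a b _ => by simp only [List.map_cons, List.prod_cons, mul_assoc]
  rw [e1]
  refine t3.congr' ?_
  filter_upwards [eventually_ne_atTop 0] with d hd
  exact (EE_cons hd e w ws).symm

theorem gue_moment (h0 : μ [] = 1) (hsd : ∀ e w, μ (e :: w) = ssum e (fun a b => μ a * μ b) w)
    (hrev : ∀ w, μ w.reverse = conj (μ w)) (w : List (Fin N)) {ε : ℝ} (hε : 0 < ε) :
    Tendsto (fun d => R350.gm (Co N d) {g | ε ≤ ‖tw N d g w - μ w‖}) atTop (𝓝 0) := by
  have hpt : ∀ d (g : Co N d → ℝ), ((‖tw N d g w - μ w‖ ^ 2 : ℝ) : ℂ) =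
      ([w, w.reverse].map (tw N d g)).prod - conj (μ w) * ([w].map (tw N d g)).prod -
        μ w * ([w.reverse].map (tw N d g)).prod + μ w * conj (μ w) := fun d g => by
    rw [Complex.ofReal_pow, ← Complex.mul_conj', map_sub, conj_tw]
    simp only [List.map_cons, List.map_nil, List.prod_cons, List.prod_nil, mul_one]
    ring
  have hint : ∀ d, Integrable (fun g : Co N d → ℝ => ((‖tw N d g w - μ w‖ ^ 2 : ℝ) : ℂ))
      (R350.gm (Co N d)) := fun d => by
    simp only [hpt]
    exact (((integrable_tw N d _).sub ((integrable_tw N d _).const_mul _)).sub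
      ((integrable_tw N d _).const_mul _)).add (integrable_const _)
  have hintR : ∀ d, Integrable (fun g : Co N d → ℝ => ‖tw N d g w - μ w‖ ^ 2)
      (R350.gm (Co N d)) := fun d => (hint d).re
  have hval : ∀ d, ((∫ g, ‖tw N d g w - μ w‖ ^ 2 ∂(R350.gm (Co N d)) : ℝ) : ℂ) =
      EE N d [w, w.reverse] - conj (μ w) * EE N d [w] - μ w * EE N d [w.reverse] +
        μ w * conj (μ w) := fun d => by
    have i1 := integrable_tw N d [w, w.reverse]
    have i2 := (integrable_tw N d [w]).const_mul (conj (μ w))
    have i3 := (integrable_tw N d [w.reverse]).const_mul (μ w)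
    have i12 : Integrable (fun g => ([w, w.reverse].map (tw N d g)).prod -
      conj (μ w) * ([w].map (tw N d g)).prod) (R350.gm (Co N d)) := i1.sub i2
    have i123 : Integrable (fun g => ([w, w.reverse].map (tw N d g)).prod -
      conj (μ w) * ([w].map (tw N d g)).prod - μ w * ([w.reverse].map (tw N d g)).prod)
        (R350.gm (Co N d)) := i12.sub i3
    rw [← integral_complex_ofReal]
    simp only [hpt]
    rw [integral_add i123 (integrable_const _), integral_sub i12 i3, integral_sub i1 i2,
      integral_const_mul, integral_const_mul, integral_const, probReal_univ, one_smul]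
    rfl
  have hlimC : Tendsto (fun d => ((∫ g, ‖tw N d g w - μ w‖ ^ 2 ∂(R350.gm (Co N d)) : ℝ) : ℂ)) atTop
      (𝓝 0) := by
    simp only [hval]
    have h := (((tendsto_EE h0 hsd [w, w.reverse]).sub
      ((tendsto_EE h0 hsd [w]).const_mul (conj (μ w)))).sub
      ((tendsto_EE h0 hsd [w.reverse]).const_mul (μ w))).add_const (μ w * conj (μ w))
    convert h using 2
    simp only [List.map_cons, List.map_nil, List.prod_cons, List.prod_nil, mul_one, hrev]
    ring
  have hlim : Tendsto (fun d => ∫ g, ‖tw N d g w - μ w‖ ^ 2 ∂(R350.gm (Co N d))) atTop (𝓝 0) := by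
    simpa only [Function.comp_def, Complex.ofReal_re, Complex.zero_re] using
      (Complex.continuous_re.tendsto 0).comp hlimC
  have hlim2 := ENNReal.tendsto_ofReal (hlim.div_const (ε ^ 2))
  rw [zero_div, ENNReal.ofReal_zero] at hlim2
  refine tendsto_of_tendsto_of_tendsto_of_le_of_le tendsto_const_nhds hlim2 (fun _ => zero_le)
    fun d => ?_
  have hM := mul_meas_ge_le_integral_of_nonneg (μ := R350.gm (Co N d))
    (Eventually.of_forall fun g => sq_nonneg ‖tw N d g w - μ w‖) (hintR d) (ε ^ 2)
  have hs : {g : Co N d → ℝ | ε ≤ ‖tw N d g w - μ w‖} = {g | ε ^ 2 ≤ ‖tw N d g w - μ w‖ ^ 2} := by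
    ext g
    exact (pow_le_pow_iff_left₀ hε.le (norm_nonneg _) two_ne_zero).symm
  show R350.gm (Co N d) {g | ε ≤ ‖tw N d g w - μ w‖} ≤ _
  rw [hs, ← ofReal_measureReal]
  refine ENNReal.ofReal_le_ofReal ?_
  rw [le_div_iff₀' (by positivity)]
  exact hM

end Crest.Agent.R89
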