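import Crest.Agent.R89.Shear

/-!
# Row 89: Gaussian integration by parts for GUE matrices (task R89-GueStein)

PLAN.  Redo `R350.GE`, `R350.stein` for `MvPolynomial σ ℂ` (evaluate at `fun p => (g p : ℂ)`; monomials,
`R350.mom_succ`), `σ = Co N d`.  Let `B p = (√d)⁻¹ • hermitianOfCoords (single p 1)` and
`G l = ∑ p, X (l, p) • (B p).map C : Matrix _ _ (MvPolynomial σ ℂ)`; evaluation (a ring hom, `map_wv`,
`AddMonoidHom.map_trace`/`RingHom.mapMatrix`) sends `G l` to `gue N d g l` (`herm_add`, `herm_smul`).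
Completeness: `∑ p, B p i j * B p k l = d⁻¹ [i = l] [j = k]` (entrywise), hence
`∑ p, tr (B p * S * B p * T) = d⁻¹ tr S tr T` and `∑ p, tr (B p * S) * tr (B p * T) = d⁻¹ tr (S * T)`.
`pderiv (e, p)` applied entrywise is a derivation of the matrix ring with
`∂ (wv G w) = ssum e (fun a b => wv G a * B p * wv G b) w`; Leibniz over the list `ws` gives an `asum`.
Then `E[tr (G e * W) Φ] = ∑ p, E[X (e,p) tr (B p W) Φ] = ∑ p, E[∂_{(e,p)} (tr (B p W) Φ)]`.
Put auxiliary lemmas in `namespace SteinAux`.
-/

set_option autoImplicit false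

namespace Crest.Agent.R89

open Crest.OpAlg MeasureTheory

variable {N d : ℕ}

namespace SteinAux

open MvPolynomial Crest.Agent.R350

theorem mul_asum {K M : Type*} [NonUnitalNonAssocSemiring M] (c : M)
    (f : List K → K → List K → M) (w : List K) :
    c * asum f w = asum (fun a k b => c * f a k b) w := map_asum (AddMonoidHom.mulLeft c) f w

theorem mul_ssum {K M : Type*} [DecidableEq K] [NonUnitalNonAssocSemiring M] (c : M) (e : K)
    (f : List K → List K → M) (w : List K) :
    c * ssum e f w = ssum e (fun a b => c * f a b) w := map_ssum (AddMonoidHom.mulLeft c) e f w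

theorem ssum_mul {K M : Type*} [DecidableEq K] [NonUnitalNonAssocSemiring M] (c : M) (e : K)
    (f : List K → List K → M) (w : List K) :
    ssum e f w * c = ssum e (fun a b => f a b * c) w := map_ssum (AddMonoidHom.mulRight c) e f w

/-- the orthonormal basis of Hermitian matrices -/
noncomputable def hb (p : Fin d × Fin d) : Matrix (Fin d) (Fin d) ℂ :=
  hermitianOfCoords (EuclideanSpace.single p 1)

/-- first coefficient -/
noncomputable def ca (i j : Fin d) : ℂ :=
  if i = j then 1 else if i < j then 1 / (√2 : ℝ) else -Complex.I / (√2 : ℝ)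

/-- second coefficient -/
noncomputable def cb (i j : Fin d) : ℂ :=
  if i = j then 0 else if i < j then Complex.I / (√2 : ℝ) else 1 / (√2 : ℝ)

theorem hb_apply (p : Fin d × Fin d) (i j : Fin d) :
    hb p i j = (if p = (i, j) then ca i j else 0) + if p = (j, i) then cb i j else 0 := by
  simp only [hb, hermitianOfCoords, ca, cb, PiLp.single_apply, eq_comm (b := p),
    apply_ite ((↑) : ℝ → ℂ), Complex.ofReal_one, Complex.ofReal_zero]
  by_cases h : i = j
  · subst h
    simp
  · simp only [h, if_false]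
    split_ifs <;> ring

theorem hb_complete (i j k l : Fin d) :
    ∑ p, hb p i j * hb p k l = if i = l ∧ j = k then 1 else 0 := by
  have e : ∑ p, hb p i j * hb p k l = ca i j * hb (i, j) k l + cb i j * hb (j, i) k l := by
    simp only [hb_apply _ i j, add_mul, Finset.sum_add_distrib, ite_mul, zero_mul,
      Finset.sum_ite_eq', Finset.mem_univ, if_true]
  have h2 : ((√2 : ℝ) : ℂ) ^ 2 = 2 := by
    rw [← Complex.ofReal_pow, Real.sq_sqrt zero_le_two]; rfl
  have h3 : ((√2 : ℝ) : ℂ) ≠ 0 := by simp
  rw [e, hb_apply, hb_apply]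
  simp only [Prod.mk.injEq]
  by_cases h1 : i = l ∧ j = k
  · obtain ⟨rfl, rfl⟩ := h1
    rcases lt_trichotomy i j with h | rfl | h
    · simp only [ca, cb, h, h.ne, h.ne', h.not_gt, if_true, if_false, and_self]
      field_simp
      linear_combination -h2 - Complex.I_sq
    · simp [ca, cb]
    · simp only [ca, cb, h, h.ne, h.ne', h.not_gt, if_true, if_false, and_self]
      field_simp
      linear_combination -h2 - Complex.I_sq
  · have h1' : ¬(j = k ∧ i = l) := fun h => h1 h.symm
    simp only [h1, h1', if_false]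
    by_cases h4 : i = k ∧ j = l
    · obtain ⟨rfl, rfl⟩ := h4
      rcases lt_trichotomy i j with h | rfl | h
      · simp only [ca, cb, h, h.ne, if_true, if_false, and_self]
        field_simp
        linear_combination Complex.I_sq
      · simp at h1
      · simp only [ca, cb, h.ne', h.not_gt, if_true, if_false, and_self]
        field_simp
        linear_combination Complex.I_sq
    · have h4' : ¬(j = l ∧ i = k) := fun h => h4 h.symm
      simp [h4, h4']

theorem herm_eq_sum (a : Fin d × Fin d → ℝ) :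
    hermitianOfCoords (WithLp.toLp 2 a) = ∑ p, (a p : ℂ) • hb p := by
  ext i j
  simp only [Matrix.sum_apply, Matrix.smul_apply, hb_apply, smul_eq_mul, mul_add, mul_ite, mul_zero,
    Finset.sum_add_distrib, Finset.sum_ite_eq', Finset.mem_univ, if_true, hermitianOfCoords, ca, cb]
  split_ifs with h
  · subst h; simp
  · ring
  · ring

section gauss

variable {σ : Type} [Fintype σ]

/-- evaluation at a real point -/
noncomputable def ev (g : σ → ℝ) : MvPolynomial σ ℂ →+* ℂ := eval fun p => (g p : ℂ)

theorem ev_mono (α : σ →₀ ℕ) (a : ℂ) (g : σ → ℝ) :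
    ev g (monomial α a) = a * ((∏ i, g i ^ α i : ℝ) : ℂ) := by
  rw [ev, eval_monomial, Finsupp.prod_fintype _ _ (by simp)]
  push_cast
  rfl

theorem integrable_ev (P : MvPolynomial σ ℂ) : Integrable (fun g => ev g P) (gm σ) := by
  induction P using MvPolynomial.induction_on' with
  | monomial α a =>
    simp only [ev_mono]
    exact (Integrable.fintype_prod (f := fun i x => x ^ α i)
      fun i => integrable_pow_gauss _).ofReal.const_mul a
  | add P Q hP hQ => simp only [map_add]; exact hP.add hQ

/-- Gaussian expectation -/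
noncomputable def GC : MvPolynomial σ ℂ →+ ℂ where
  toFun P := ∫ g, ev g P ∂gm σ
  map_zero' := by simp
  map_add' P Q := by simp only [map_add]; exact integral_add (integrable_ev P) (integrable_ev Q)

theorem GC_apply (P : MvPolynomial σ ℂ) : GC P = ∫ g, ev g P ∂gm σ := rfl

theorem GC_C_mul (c : ℂ) (P : MvPolynomial σ ℂ) : GC (C c * P) = c * GC P := by
  simp only [GC_apply, map_mul, ev, eval_C, integral_const_mul]

theorem GC_mono (α : σ →₀ ℕ) (a : ℂ) : GC (monomial α a) = a * ((∏ i, mom (α i) : ℝ) : ℂ) := by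
  simp only [GC_apply, ev_mono, integral_const_mul, integral_complex_ofReal, gm]
  rw [integral_fintype_prod_eq_prod (f := fun i (x : ℝ) => x ^ α i)]
  rfl

theorem steinC [DecidableEq σ] (b : σ) (P : MvPolynomial σ ℂ) : GC (X b * P) = GC (pderiv b P) := by
  induction P using MvPolynomial.induction_on' with
  | monomial α a =>
    rw [X, monomial_mul, pderiv_monomial, GC_mono, GC_mono,
      Fintype.prod_eq_mul_prod_subtype_ne _ b, Fintype.prod_eq_mul_prod_subtype_ne _ b]
    have e1 : ∀ j : {j // j ≠ b}, (Finsupp.single b 1 + α : σ →₀ ℕ) j = α j := fun j => by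
      simp [Finsupp.single_eq_of_ne j.2]
    have e2 : ∀ j : {j // j ≠ b}, (α - Finsupp.single b 1 : σ →₀ ℕ) j = α j := fun j => by
      simp [Finsupp.single_eq_of_ne j.2]
    simp only [e1, e2, Finsupp.add_apply, Finsupp.single_eq_same, Finsupp.tsub_apply]
    rw [add_comm 1, mom_succ]
    push_cast
    ring
  | add P Q hP hQ => simp only [mul_add, map_add, hP, hQ]

end gauss

/-- polynomial matrices -/
abbrev PM (N d : ℕ) : Type := Matrix (Fin d) (Fin d) (MvPolynomial (Co N d) ℂ)

/-- the scaled basis -/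
noncomputable def Bc (N : ℕ) (p : Fin d × Fin d) : PM N d :=
  Matrix.of fun i j => C (((√(d : ℝ) : ℝ) : ℂ)⁻¹ * hb p i j)

/-- the generic GUE matrix -/
noncomputable def GG (N d : ℕ) (l : Fin N) : PM N d :=
  ∑ p, (X (l, p) : MvPolynomial (Co N d) ℂ) • Bc N p

/-- normalised trace -/
noncomputable def tn : PM N d →+ MvPolynomial (Co N d) ℂ :=
  (AddMonoidHom.mulLeft (C (d : ℂ)⁻¹)).comp (Matrix.traceAddMonoidHom _ _)

theorem tn_apply (M : PM N d) : tn M = C (d : ℂ)⁻¹ * M.trace := rfl

/-- normalised trace of a word -/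
noncomputable def tp (N d : ℕ) (w : List (Fin N)) : MvPolynomial (Co N d) ℂ := tn (wv (GG N d) w)

theorem ev_GG (g : Co N d → ℝ) (l : Fin N) : (ev g).mapMatrix (GG N d l) = gue N d g l := by
  rw [gue, matrixTuple, herm_eq_sum]
  ext i j
  simp only [GG, Bc, RingHom.mapMatrix_apply, Matrix.map_apply, Matrix.sum_apply, Matrix.smul_apply,
    map_sum, smul_eq_mul, map_mul, ev, eval_X, eval_C, Matrix.of_apply]
  refine Finset.sum_congr rfl fun p _ => ?_
  push_cast
  ring

theorem ev_tp (g : Co N d → ℝ) (w : List (Fin N)) : ev g (tp N d w) = tw N d g w := by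
  rw [tp, tn_apply, map_mul, AddMonoidHom.map_trace, ← RingHom.mapMatrix_apply, map_wv, tw]
  simp only [ev_GG]
  rw [ev, eval_C]

theorem ev_prod (g : Co N d → ℝ) (ws : List (List (Fin N))) :
    ev g (ws.map (tp N d)).prod = (ws.map (tw N d g)).prod := by
  rw [map_list_prod, List.map_map]
  simp only [Function.comp_def, ev_tp]

theorem EE_eq (ws : List (List (Fin N))) : EE N d ws = GC (ws.map (tp N d)).prod := by
  simp only [GC_apply, ev_prod, EE]

theorem Bc_complete (i j k l : Fin d) :
    ∑ p, Bc N p i j * Bc N p k l = if i = l ∧ j = k then C (d : ℂ)⁻¹ else 0 := by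
  have h2 : ((√(d : ℝ) : ℝ) : ℂ)⁻¹ * ((√(d : ℝ) : ℝ) : ℂ)⁻¹ = (d : ℂ)⁻¹ := by
    rw [← mul_inv, ← Complex.ofReal_mul, Real.mul_self_sqrt d.cast_nonneg, Complex.ofReal_natCast]
  simp only [Bc, Matrix.of_apply, ← map_mul, ← map_sum, mul_mul_mul_comm _ (hb _ i j), h2,
    ← Finset.mul_sum, hb_complete]
  split_ifs <;> simp

theorem sum_sandwich (S : PM N d) : ∑ p, Bc N p * S * Bc N p = tn S • (1 : PM N d) := by
  ext1 i l
  have : ∀ p, (Bc N p * S * Bc N p) i l = ∑ k, ∑ j, S j k * (Bc N p i j * Bc N p k l) := fun p => by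
    simp only [Matrix.mul_apply, Finset.sum_mul]
    exact Finset.sum_congr rfl fun k _ => Finset.sum_congr rfl fun j _ => by ring
  simp only [Matrix.sum_apply, this]
  rw [Finset.sum_comm]
  simp only [Finset.sum_comm (s := (Finset.univ : Finset (Fin d × Fin d))), ← Finset.mul_sum,
    Bc_complete, tn_apply, Matrix.smul_apply, Matrix.one_apply, Matrix.trace, Matrix.diag_apply]
  by_cases h : i = l <;> simp [h, Finset.mul_sum, mul_comm]

theorem sum_expand (S : PM N d) :
    ∑ p, (Bc N p * S).trace • Bc N p = (C (d : ℂ)⁻¹ : MvPolynomial (Co N d) ℂ) • S := by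
  ext1 k l
  have : ∀ p, ((Bc N p * S).trace • Bc N p) k l = ∑ i, ∑ j, S j i * (Bc N p i j * Bc N p k l) :=
    fun p => by
    simp only [Matrix.smul_apply, Matrix.trace, Matrix.diag_apply, Matrix.mul_apply, smul_eq_mul,
      Finset.sum_mul]
    exact Finset.sum_congr rfl fun k _ => Finset.sum_congr rfl fun j _ => by ring
  simp only [Matrix.sum_apply, this]
  rw [Finset.sum_comm]
  simp only [Finset.sum_comm (s := (Finset.univ : Finset (Fin d × Fin d))), ← Finset.mul_sum,
    Bc_complete, Matrix.smul_apply, ite_and]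
  simp [mul_comm]

theorem tn_smul (c : MvPolynomial (Co N d) ℂ) (M : PM N d) : tn (c • M) = c * tn M := by
  rw [tn_apply, tn_apply, Matrix.trace_smul, smul_eq_mul, mul_left_comm]

theorem sum_tn_one (S T : PM N d) : ∑ p, tn (Bc N p * (S * Bc N p * T)) = tn S * tn T := by
  simp only [← mul_assoc]
  rw [← map_sum, ← Finset.sum_mul, sum_sandwich, smul_mul_assoc, one_mul, tn_smul]

theorem sum_tn_two (S T U : PM N d) :
    ∑ p, tn (Bc N p * S) * tn (T * Bc N p * U) = C ((d : ℂ) ^ 2)⁻¹ * tn (S * U * T) := by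
  have e : ∀ p, tn (Bc N p * S) * tn (T * Bc N p * U) =
      C (d : ℂ)⁻¹ * tn (((Bc N p * S).trace • Bc N p) * (U * T)) := fun p => by
    rw [smul_mul_assoc, tn_smul, tn_apply, tn_apply, tn_apply, Matrix.trace_mul_cycle,
      Matrix.trace_mul_comm (U * T), mul_assoc]
  simp only [e]
  rw [← Finset.mul_sum, ← map_sum, ← Finset.sum_mul, sum_expand, smul_mul_assoc, tn_smul,
    ← mul_assoc, ← map_mul, ← mul_inv, ← sq, mul_assoc]

/-- entrywise partial derivative -/
noncomputable def Dm (x : Co N d) (M : PM N d) : PM N d := M.map (pderiv x)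

theorem Dm_mul (x : Co N d) (M M' : PM N d) : Dm x (M * M') = Dm x M * M' + M * Dm x M' := by
  ext1 i j
  simp only [Dm, Matrix.map_apply, Matrix.mul_apply, map_sum, pderiv_mul, Matrix.add_apply,
    Finset.sum_add_distrib]

theorem Dm_one (x : Co N d) : Dm x 1 = 0 := by
  ext1 i j
  simp only [Dm, Matrix.map_apply, Matrix.one_apply]
  split_ifs <;> simp

theorem Dm_Bc (x : Co N d) (p : Fin d × Fin d) : Dm x (Bc N p) = 0 := by
  ext1 i j
  simp only [Dm, Bc, Matrix.map_apply, Matrix.of_apply, pderiv_C, Matrix.zero_apply]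

theorem Dm_GG (e l : Fin N) (p : Fin d × Fin d) :
    Dm (e, p) (GG N d l) = if l = e then Bc N p else 0 := by
  ext1 i j
  simp only [Dm, GG, Bc, Matrix.map_apply, Matrix.sum_apply, Matrix.smul_apply, Matrix.of_apply,
    map_sum, smul_eq_mul, pderiv_mul, pderiv_C, mul_zero, add_zero, pderiv_X, Pi.single_apply,
    Prod.mk.injEq, ite_and, ite_mul, one_mul, zero_mul]
  split_ifs <;> simp

theorem Dm_wv (e : Fin N) (p : Fin d × Fin d) (w : List (Fin N)) :
    Dm (e, p) (wv (GG N d) w) = ssum e (fun a b => wv (GG N d) a * Bc N p * wv (GG N d) b) w := by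
  induction w with
  | nil => exact Dm_one _
  | cons k w ih =>
    rw [wv_cons, Dm_mul, ih, Dm_GG, ssum_cons, mul_ssum]
    simp only [wv_nil, wv_cons, one_mul, ite_mul, zero_mul, mul_assoc]

theorem pderiv_tn (x : Co N d) (M : PM N d) : pderiv x (tn M) = tn (Dm x M) := by
  rw [tn_apply, tn_apply, pderiv_C_mul, AddMonoidHom.map_trace, Dm]

theorem pderiv_list (x : Co N d) {K : Type} (f : K → MvPolynomial (Co N d) ℂ) (ws : List K) :
    pderiv x (ws.map f).prod = asum (fun us v vs => pderiv x (f v) * ((us ++ vs).map f).prod) ws := by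
  induction ws with
  | nil => simp [asum_nil]
  | cons v ws ih =>
    rw [List.map_cons, List.prod_cons, pderiv_mul, ih, asum_cons, mul_asum]
    simp only [List.nil_append, List.cons_append, List.map_cons,
      List.prod_cons, mul_left_comm (f v)]

end SteinAux

open SteinAux MvPolynomial

theorem integrable_tw (N d : ℕ) (ws : List (List (Fin N))) :
    Integrable (fun g => (ws.map (tw N d g)).prod) (R350.gm (Co N d)) := by
  simpa only [ev_prod] using integrable_ev (ws.map (tp N d)).prod

theorem EE_cons (_hd : d ≠ 0) (e : Fin N) (w : List (Fin N)) (ws : List (List (Fin N))) :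
    EE N d ((e :: w) :: ws) = ssum e (fun a b => EE N d (a :: b :: ws)) w +
      ((d : ℂ) ^ 2)⁻¹ * asum (fun us v vs =>
        ssum e (fun a b => EE N d ((w ++ b ++ a) :: (us ++ vs))) v) ws := by
  have e1 : tp N d (e :: w) = ∑ p, X (e, p) * tn (Bc N p * wv (GG N d) w) := by
    rw [tp, wv_cons, GG, Finset.sum_mul, map_sum]
    simp only [smul_mul_assoc, tn_smul]
  have e2 : ∑ p, tn (Bc N p * Dm (e, p) (wv (GG N d) w)) =
      ssum e (fun a b => tp N d a * tp N d b) w := by
    simp only [Dm_wv, tp, ← sum_tn_one, ssum_sum]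
    refine Finset.sum_congr rfl fun p _ => ?_
    rw [mul_ssum, map_ssum]
  have e3 : ∀ v, ∑ p, tn (Bc N p * wv (GG N d) w) * pderiv (e, p) (tp N d v) =
      ssum e (fun a b => C ((d : ℂ) ^ 2)⁻¹ * tp N d (w ++ b ++ a)) v := fun v => by
    simp only [tp, wv_append, pderiv_tn, Dm_wv, ← sum_tn_two, ssum_sum]
    refine Finset.sum_congr rfl fun p _ => ?_
    rw [map_ssum, mul_ssum]
  simp only [EE_eq, List.map_cons, List.prod_cons]
  rw [e1, Finset.sum_mul, map_sum]
  simp only [mul_assoc, steinC, pderiv_mul, pderiv_tn, Dm_mul, Dm_Bc, zero_mul, zero_add]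
  rw [← map_sum, Finset.sum_add_distrib, ← Finset.sum_mul, e2, map_add, ssum_mul, map_ssum]
  congr 1
  · simp only [mul_assoc]
  · rw [mul_asum]
    have : ∀ p, tn (Bc N p * wv (GG N d) w) * pderiv (e, p) (ws.map (tp N d)).prod =
        asum (fun us v vs => tn (Bc N p * wv (GG N d) w) * pderiv (e, p) (tp N d v) *
          ((us ++ vs).map (tp N d)).prod) ws := fun p => by
      rw [pderiv_list, mul_asum]
      simp only [mul_assoc]
    simp only [this]
    rw [← asum_sum, map_asum]
    refine asum_congr fun us v vs _ => ?_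
    rw [← Finset.sum_mul, e3, ssum_mul, map_ssum, mul_ssum]
    simp only [mul_assoc, GC_C_mul]

end Crest.Agent.R89
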