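import Crest.Agent.R89.Defs
import Crest.Agent.R134.Fock

/-!
# Row 89: the Fock model with right multiplication (task R89-Model)

PLAN.  Copy the proof of `R134.exists_model` (`R134/Fock.lean`, namespace `Fk`, `exists_vn`) up to the
construction of `τ`, `ι`; `H = Fk.FS I`, `Ω = δ []`.  `R m` is the continuous extension of
`ι a Ω ↦ ι (a * m) Ω` (`n2 (a * m) ≤ n2 a * ‖m‖`, `n2 a = ‖ι a Ω‖`, dense range; e.g.
`LinearMap.extendOfNorm` / `ContinuousLinearMap.extend`), linear in `m` by density, `‖R m‖ ≤ ‖m‖`
(`LinearMap.mkContinuous`).  `R (X f) = d f = r f + star (r f)` by density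
(`d f (a Ω) = a (d f Ω) = a (X f Ω)`).  On the basis: `star (l e) * r f - r f * star (l e) = δ P`
and `star (l e)` commutes with `star (r f)` (adjoint of `c1`).
-/

set_option autoImplicit false
set_option linter.deprecated false

namespace Crest.Agent.R89

open Crest.Agent.R95 Crest.Agent.R134 Crest.OpAlg Polynomial
open scoped InnerProductSpace ComplexConjugate

namespace ModelAux

theorem exists_R {A : Type} [CStarAlgebra A] {H : Type} [NormedAddCommGroup H]
    [InnerProductSpace ℂ H] [CompleteSpace H] (τ : Tr A) (ev : A →ₗ[ℂ] H) (hd : DenseRange ev)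
    (hn : ∀ a, τ.n2 a = ‖ev a‖) :
    ∃ R : A →L[ℂ] (H →L[ℂ] H), ∀ m a, R m (ev a) = ev (a * m) := by
  have hb : ∀ m a, ‖(ev ∘ₗ LinearMap.mulRight ℂ m) a‖ ≤ ‖m‖ * ‖ev a‖ := fun m a => by
    rw [LinearMap.comp_apply, LinearMap.mulRight_apply, ← hn, ← hn, mul_comm]
    exact τ.n2_mul_le_right a m
  have he : ∀ m a, (ev ∘ₗ LinearMap.mulRight ℂ m).extendOfNorm ev (ev a) = ev (a * m) :=
    fun m a => LinearMap.extendOfNorm_eq hd ⟨_, hb m⟩ a
  have hx : ∀ {T T' : H →L[ℂ] H}, (∀ a, T (ev a) = T' (ev a)) → T = T' := fun {T T'} h =>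
    DFunLike.coe_injective (hd.equalizer T.continuous T'.continuous (funext h))
  let R₀ : A →ₗ[ℂ] (H →L[ℂ] H) :=
    { toFun := fun m => (ev ∘ₗ LinearMap.mulRight ℂ m).extendOfNorm ev
      map_add' := fun m m' => hx fun a => by
        rw [ContinuousLinearMap.add_apply, he, he, he, mul_add, map_add]
      map_smul' := fun c m => hx fun a => by
        rw [RingHom.id_apply, ContinuousLinearMap.smul_apply, he, he, mul_smul_comm, map_smul] }
  refine ⟨R₀.mkContinuous 1 fun m => ?_, he⟩
  rw [one_mul]
  exact LinearMap.opNorm_extendOfNorm_le hd (norm_nonneg _) (hb m)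

end ModelAux

open Fk ModelAux

theorem exists_FM (I : Type) [DecidableEq I] :
    ∃ (A H : Type) (_ : CStarAlgebra A) (_ : NormedAddCommGroup H) (_ : InnerProductSpace ℂ H)
      (_ : CompleteSpace H) (τ : Tr A) (ι : A →⋆ₐ[ℂ] (H →L[ℂ] H)) (R : A →L[ℂ] (H →L[ℂ] H))
      (Ω : H) (l : I → H →L[ℂ] H) (X : I → A), FM τ ι R Ω l X := by
  have il : ∀ i : I, Function.Injective (fun w : List I => i :: w) := fun i v w h => by
    simpa using h
  have ir : ∀ i : I, Function.Injective (fun w : List I => w ++ [i]) := fun i v w h => by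
    simpa using h
  choose l hl using fun i : I => exists_shift (il i)
  choose r hr using fun i : I => exists_shift (ir i)
  have l0 : ∀ i, star (l i) (δ I []) = 0 := fun i => star_shift_of_not_mem (hl i) (by simp)
  have r0 : ∀ i, star (r i) (δ I []) = 0 := fun i => star_shift_of_not_mem (hr i) (by simp)
  have l1 : ∀ i j w, star (l i) (δ I (j :: w)) = if i = j then δ I w else 0 := fun i j w => by
    split_ifs with h
    · subst h; exact star_shift_of_mem (il i) (hl i) w
    · exact star_shift_of_not_mem (hl i) (by simp [h])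
  have r1 : ∀ i j w, star (r i) (δ I (w ++ [j])) = if i = j then δ I w else 0 := fun i j w => by
    split_ifs with h
    · subst h; exact star_shift_of_mem (ir i) (hr i) w
    · exact star_shift_of_not_mem (hr i) (by simp [h])
  have c1 : ∀ i j, l i * r j = r j * l i := fun i j => R194.ext_basis (δ I) fun w => by
    change l i (r j _) = r j (l i _)
    rw [hr, hl, hl, hr]; rfl
  have c2 : ∀ i j, star (l i) * r j - r j * star (l i) = star (r j) * l i - l i * star (r j) :=
    fun i j => R194.ext_basis (δ I) fun w => by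
    change star (l i) (r j _) - r j (star (l i) _) = star (r j) (l i _) - l i (star (r j) _)
    rw [hr, hl]
    rcases eq_or_ne w [] with rfl | hw
    · rw [l0, r0, map_zero, map_zero, List.nil_append, l1, ← List.nil_append [i], r1]
      simp only [eq_comm]
    · have e1 : star (l i) (δ I (w ++ [j])) - r j (star (l i) (δ I w)) = 0 := by
        obtain ⟨k, w', rfl⟩ := List.exists_cons_of_ne_nil hw
        rw [List.cons_append, l1, l1]
        split_ifs
        · rw [hr, sub_self]
        · simp
      have e2 : star (r j) (δ I (i :: w)) - l i (star (r j) (δ I w)) = 0 := by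
        obtain ⟨w', k, rfl⟩ := (List.eq_nil_or_concat' w).resolve_left hw
        rw [← List.cons_append, r1, r1]
        split_ifs
        · rw [hl, sub_self]
        · simp
      rw [e1, e2]
  let d : I → FS I →L[ℂ] FS I := fun j => r j + star (r j)
  let s : I → FS I →L[ℂ] FS I := fun i => l i + star (l i)
  have hds : ∀ j, star (d j) = d j := fun j => by simp only [d, star_add, star_star, add_comm]
  have hss : ∀ j, star (s j) = s j := fun j => by simp only [s, star_add, star_star, add_comm]
  have c3 : ∀ i j, d j * s i = s i * d j := fun i j => by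
    have a1 := c1 i j
    have a2 := congrArg star (c1 i j)
    rw [star_mul, star_mul] at a2
    have a3 := c2 i j
    simp only [d, s, mul_add, add_mul]
    rw [a1, a2, ← sub_eq_zero, ← neg_eq_zero, ← sub_eq_zero.2 a3]
    abel
  obtain ⟨M, hM⟩ : ∃ M : VonNeumannAlgebra (FS I), ∀ T, T ∈ M ↔ ∀ j, d j * T = T * d j := by
    refine ⟨{ toStarSubalgebra := StarSubalgebra.centralizer ℂ (Set.range d)
              centralizer_centralizer' := by simp }, fun T => ?_⟩
    change T ∈ StarSubalgebra.centralizer ℂ (Set.range d) ↔ _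
    rw [StarSubalgebra.mem_centralizer_iff]
    constructor
    · exact fun h j => (h _ ⟨j, rfl⟩).1
    · rintro h _ ⟨j, rfl⟩
      exact ⟨h j, by rw [hds]; exact h j⟩
  let X : I → M.toStarSubalgebra := fun i => ⟨s i, (hM _).2 fun j => c3 i j⟩
  let Ω : FS I := δ I []
  have hd : ∀ x ∈ Set.range X, ∃ d ∈ M.commutant,
      d Ω = (x : FS I →L[ℂ] FS I) Ω ∧ (star d) Ω = (star (x : FS I →L[ℂ] FS I)) Ω := by
    rintro _ ⟨i, rfl⟩
    have e : d i Ω = s i Ω := by
      change r i (δ I []) + star (r i) (δ I []) = l i (δ I []) + star (l i) (δ I [])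
      rw [hr, hl, r0, l0]; rfl
    refine ⟨d i, VonNeumannAlgebra.mem_commutant_iff.2 fun T hT => ((hM T).1 hT i).symm, e, ?_⟩
    change star (d i) Ω = star (s i) Ω
    rw [hds, hss, e]
  have hcyc : ∀ w, ∃ a ∈ StarAlgebra.adjoin ℂ (Set.range X),
      (a : FS I →L[ℂ] FS I) Ω = δ I w := by
    have hX : ∀ i, X i ∈ StarAlgebra.adjoin ℂ (Set.range X) :=
      fun i => StarAlgebra.subset_adjoin ℂ _ ⟨i, rfl⟩
    have : ∀ w, (∃ a ∈ StarAlgebra.adjoin ℂ (Set.range X), (a : FS I →L[ℂ] FS I) Ω = δ I w) ∧
        ∀ i, ∃ a ∈ StarAlgebra.adjoin ℂ (Set.range X),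
          (a : FS I →L[ℂ] FS I) Ω = δ I (i :: w) := by
      intro w
      induction w with
      | nil =>
        refine ⟨⟨1, one_mem _, rfl⟩, fun i => ⟨X i, hX i, ?_⟩⟩
        change l i (δ I []) + star (l i) (δ I []) = _
        rw [hl, l0, add_zero]
      | cons j w ih =>
        refine ⟨ih.2 j, fun i => ?_⟩
        obtain ⟨a, ha, ea⟩ := ih.1
        obtain ⟨b, hb, eb⟩ := ih.2 j
        refine ⟨X i * b - if i = j then a else 0,
          sub_mem (mul_mem (hX i) hb) (by split_ifs; exacts [ha, zero_mem _]), ?_⟩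
        change l i ((b : FS I →L[ℂ] FS I) Ω) + star (l i) ((b : FS I →L[ℂ] FS I) Ω) -
          (((if i = j then a else 0 : M.toStarSubalgebra)) : FS I →L[ℂ] FS I) Ω = _
        rw [eb, hl, l1]
        split_ifs
        · rw [ea, add_sub_cancel_right]
        · simp
    exact fun w => (this w).1
  let ev : M.toStarSubalgebra →ₗ[ℂ] FS I :=
    { toFun := fun a => (a : FS I →L[ℂ] FS I) Ω
      map_add' := fun _ _ => rfl
      map_smul' := fun _ _ => rfl }
  have hdense : Dense ((fun a : M.toStarSubalgebra => (a : FS I →L[ℂ] FS I) Ω) ''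
      (StarAlgebra.adjoin ℂ (Set.range X) : Set M.toStarSubalgebra)) := by
    have h1 : Dense (Submodule.span ℂ (Set.range (δ I)) : Set (FS I)) := by
      rw [Submodule.dense_iff_topologicalClosure_eq_top]
      exact (δ I).dense_span
    refine h1.mono ?_
    have : Submodule.span ℂ (Set.range (δ I)) ≤
        (StarAlgebra.adjoin ℂ (Set.range X)).toSubalgebra.toSubmodule.map ev := by
      rw [Submodule.span_le]
      rintro _ ⟨w, rfl⟩
      exact hcyc w
    exact this
  obtain ⟨τ, t1, t2, t3, t4⟩ := exists_vn M Ω ((δ I).orthonormal.1 _) (Set.range X) hd hdense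
  have hdr : DenseRange ev := hdense.mono (Set.image_subset_range _ _)
  obtain ⟨R, hR⟩ := exists_R τ ev hdr t2
  have hRd : ∀ f, R (X f) = d f := fun f =>
    DFunLike.coe_injective (hdr.equalizer (R (X f)).continuous (d f).continuous (funext fun a => by
      change R (X f) (ev a) = d f ((a : FS I →L[ℂ] FS I) Ω)
      rw [hR, ← comm_apply
        (VonNeumannAlgebra.mem_commutant_iff.2 fun T hT => ((hM T).1 hT f).symm) a]
      change (a : FS I →L[ℂ] FS I) (l f (δ I []) + star (l f) (δ I [])) =
        (a : FS I →L[ℂ] FS I) (r f (δ I []) + star (r f) (δ I []))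
      rw [hr, hl, r0, l0]; rfl))
  refine ⟨M.toStarSubalgebra, FS I, inferInstance, inferInstance, inferInstance, inferInstance, τ,
    M.toStarSubalgebra.subtype, R, Ω, l, X, t3.faithful, t1, hR, hdense, fun _ => rfl, l0,
    fun e f => ?_⟩
  have a2 := congrArg star (c1 e f)
  rw [star_mul, star_mul] at a2
  rw [hRd]
  simp only [d, mul_add, add_mul]
  rw [a2, add_sub_add_right_eq_sub]
  refine R194.ext_basis (δ I) fun w => ?_
  change star (l e) (r f _) - r f (star (l e) _) = _
  rw [hr]
  rcases eq_or_ne w [] with rfl | hw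
  · rw [l0, map_zero, List.nil_append, l1, sub_zero]
    split_ifs
    · rw [PP_apply, inner_δ, if_pos rfl, one_smul]
    · rfl
  · obtain ⟨k, w', rfl⟩ := List.exists_cons_of_ne_nil hw
    have : (if e = f then PP Ω else 0) (δ I (k :: w')) = 0 := by
      split_ifs
      · rw [PP_apply, inner_δ, if_neg hw.symm, zero_smul]
      · rfl
    rw [this, List.cons_append, l1, l1]
    split_ifs
    · rw [hr, sub_self]
    · simp

end Crest.Agent.R89
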